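import Mathlib

namespace Vale.Agent.P037

/-- Lexicographic sort key: kind, zone, local position, tie. -/
abbrev Key : Type := ℕ ×ₗ ℕ ×ₗ ℕ ×ₗ ℕ

def mkKey (a b c d : ℕ) : Key := toLex (a, toLex (b, toLex (c, d)))

theorem mkKey_lt {a b c d a' b' c' d' : ℕ} :
    mkKey a b c d < mkKey a' b' c' d' ↔
      a < a' ∨ a = a' ∧ (b < b' ∨ b = b' ∧ (c < c' ∨ c = c' ∧ d < d')) := by
  simp [mkKey, Prod.Lex.toLex_lt_toLex]

theorem mkKey_le {a b c d a' b' c' d' : ℕ} :
    mkKey a b c d ≤ mkKey a' b' c' d' ↔
      a < a' ∨ a = a' ∧ (b < b' ∨ b = b' ∧ (c < c' ∨ c = c' ∧ d ≤ d')) := by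
  simp [mkKey, Prod.Lex.toLex_le_toLex]

theorem mkKey_inj {a b c d a' b' c' d' : ℕ} :
    mkKey a b c d = mkKey a' b' c' d' ↔ a = a' ∧ b = b' ∧ c = c' ∧ d = d' := by
  simp [mkKey]

/-- Enumeration of a finite type monotone for a given key. -/
noncomputable def sortedEquiv {α β : Type} [Fintype α] [LinearOrder β] (key : α → β) {n : ℕ}
    (h : Fintype.card α = n) : Fin n ≃ α :=
  (Tuple.sort (key ∘ (Fintype.equivFinOfCardEq h).symm)).trans (Fintype.equivFinOfCardEq h).symm

theorem sortedEquiv_monotone {α β : Type} [Fintype α] [LinearOrder β] (key : α → β) {n : ℕ}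
    (h : Fintype.card α = n) : Monotone (fun i => key (sortedEquiv key h i)) :=
  Tuple.monotone_sort (key ∘ (Fintype.equivFinOfCardEq h).symm)

theorem sortedEquiv_symm_lt {α β : Type} [Fintype α] [LinearOrder β] (key : α → β) {n : ℕ}
    (h : Fintype.card α = n) {a b : α} (hab : key a < key b) :
    (sortedEquiv key h).symm a < (sortedEquiv key h).symm b := by
  by_contra hh
  have := sortedEquiv_monotone key h (not_lt.mp hh)
  simp only [Equiv.apply_symm_apply] at this
  exact absurd hab (not_lt.mpr this)

/-- Kinds of rows outside the anchor. -/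
inductive RK : Type
  | X | V | P | T | W
  deriving DecidableEq

instance instFintypeRK : Fintype RK :=
  ⟨{.X, .V, .P, .T, .W}, fun x => by cases x <;> simp⟩

/-- Kinds of columns outside the anchor. -/
inductive CK : Type
  | Y | U | W | G (l : RK)
  deriving DecidableEq, Fintype

def RK.idx : RK → Fin 5
  | .X => 0
  | .V => 1
  | .P => 2
  | .T => 3
  | .W => 4

def CK.idx : CK → Fin 8
  | .Y => 0
  | .U => 1
  | .W => 2
  | .G .X => 3
  | .G .V => 4
  | .G .P => 5
  | .G .T => 6
  | .G .W => 7

theorem RK.idx_injective : Function.Injective RK.idx := by decide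

theorem CK.idx_injective : Function.Injective CK.idx := by decide

/-- The anchor code of a column kind. -/
def code (κ : CK) : Fin 54 := Fin.castLE (by norm_num) κ.idx

theorem code_injective : Function.Injective code :=
  fun _ _ h => CK.idx_injective (Fin.castLE_injective _ h)

theorem code_lt (κ : CK) : (code κ).val < 8 := κ.idx.isLt

/-- Anchor column labels: pairs of anchor rows. -/
abbrev Pair : Type := {p : Fin 54 × Fin 54 // p.1 < p.2}

/-- Row items of the three gadgets. -/
inductive GR : Type
  | xm | x | xp | v | p | x' | v' | p' | x'' | t''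
  deriving DecidableEq

instance instFintypeGR : Fintype GR :=
  ⟨{.xm, .x, .xp, .v, .p, .x', .v', .p', .x'', .t''}, fun i => by cases i <;> simp⟩

/-- Column items of the three gadgets. -/
inductive GC : Type
  | y | u | uc | ym' | y' | yp' | u' | y''
  deriving DecidableEq

instance instFintypeGC : Fintype GC :=
  ⟨{.y, .u, .uc, .ym', .y', .yp', .u', .y''}, fun i => by cases i <;> simp⟩

def GR.grp : GR → Fin 3
  | .xm | .x | .xp | .v | .p => 0
  | .x' | .v' | .p' => 1
  | .x'' | .t'' => 2

def GC.grp : GC → Fin 3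
  | .y | .u | .uc => 0
  | .ym' | .y' | .yp' | .u' => 1
  | .y'' => 2

def GR.kind : GR → RK
  | .xm | .x | .xp | .x' | .x'' => .X
  | .v | .v' => .V
  | .p | .p' => .P
  | .t'' => .T

def GC.kind : GC → CK
  | .y | .ym' | .y' | .yp' | .y'' => .Y
  | .u | .uc | .u' => .U

def GR.loc : GR → ℕ
  | .x => 1
  | .xp => 2
  | _ => 0

def GC.loc : GC → ℕ
  | .uc => 1
  | .y' => 1
  | .yp' => 2
  | _ => 0

/-- The entries inside the gadgets. -/
def gRel : GR → GC → Bool
  | .xm, .y | .xp, .y => true
  | .xm, .u | .xp, .u => true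
  | .x, .uc => true
  | .v, .y | .v, .u => true
  | .p, .y | .p, .uc => true
  | .x', .ym' | .x', .yp' | .x', .u' => true
  | .v', .y' | .v', .u' => true
  | .p', .ym' | .p', .yp' | .p', .u' => true
  | .x'', .y'' => true
  | .t'', .y'' => true
  | _, _ => false

theorem gRel_grp : ∀ i j, gRel i j = true → GR.grp i = GC.grp j := by decide

/-- Roles of the pattern's rows. -/
inductive HR : Type
  | z (t : Fin 54) | w (g : Fin 3) | item (i : GR)
  deriving DecidableEq, Fintype

/-- Roles of the pattern's columns. -/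
inductive HC : Type
  | q (p : Pair) | w (g : Fin 3) | g (l : RK) | item (j : GC)
  deriving DecidableEq, Fintype

def HR.kind : HR → Option RK
  | .z _ => none
  | .w _ => some .W
  | .item i => some i.kind

def HC.kind : HC → Option CK
  | .q _ => none
  | .w _ => some .W
  | .g l => some (.G l)
  | .item j => some j.kind

/-- The pattern, as a table over roles. -/
def hRel : HR → HC → Bool
  | .z t, .q p => decide (t = p.1.1 ∨ t = p.1.2)
  | .z t, c => decide (c.kind.map code = some t)
  | _, .q _ => false
  | r, .g l => decide (r.kind = some l)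
  | .w a, .w b => decide (a = b)
  | .w a, .item j => decide (a = j.grp)
  | .item i, .w b => decide (i.grp = b)
  | .item i, .item j => gRel i j

def HR.key : HR → ℕ → Key
  | .z t, d => mkKey 0 t.val 0 d
  | .w a, d => mkKey (RK.W.idx.val + 1) a.val 0 d
  | .item i, d => mkKey (i.kind.idx.val + 1) i.grp.val i.loc d

def HC.key : HC → ℕ → Key
  | .q p, d => mkKey 0 p.1.1.val p.1.2.val d
  | .w a, d => mkKey (CK.W.idx.val + 1) a.val 0 d
  | .g l, d => mkKey ((CK.G l).idx.val + 1) 0 0 d
  | .item j, d => mkKey (j.kind.idx.val + 1) j.grp.val j.loc d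

theorem GR.key_data : ∀ i i' : GR,
    i.kind.idx = i'.kind.idx → i.grp = i'.grp → i.loc = i'.loc → i = i' := by decide

theorem GC.key_data : ∀ i i' : GC,
    i.kind.idx = i'.kind.idx → i.grp = i'.grp → i.loc = i'.loc → i = i' := by decide

theorem GR.kind_ne_W : ∀ i : GR, i.kind.idx.val < 4 := by decide

theorem GC.kind_lt : ∀ i : GC, i.kind.idx.val < 2 := by decide

theorem CK.G_idx_ge : ∀ l : RK, 3 ≤ (CK.G l).idx.val := by decide

theorem HR.key_injective {r r' : HR} {d d' : ℕ} (h : r.key d = r'.key d') : r = r' ∧ d = d' := by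
  rcases r with t | a | i <;> rcases r' with t' | a' | i' <;>
    obtain ⟨h1, h2, h3, h4⟩ := mkKey_inj.mp h
  · exact ⟨congrArg _ (Fin.ext h2), h4⟩
  · omega
  · omega
  · omega
  · exact ⟨congrArg _ (Fin.ext h2), h4⟩
  · have h1 : (4 : Fin 5).val + 1 = i'.kind.idx.val + 1 := h1
    have := GR.kind_ne_W i'
    simp at h1; omega
  · omega
  · have h1 : i.kind.idx.val + 1 = (4 : Fin 5).val + 1 := h1
    have := GR.kind_ne_W i
    simp at h1; omega
  · exact ⟨congrArg _ (GR.key_data i i' (Fin.ext (by omega)) (Fin.ext h2) h3), h4⟩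

theorem HC.key_injective {r r' : HC} {d d' : ℕ} (h : r.key d = r'.key d') : r = r' ∧ d = d' := by
  have hW : (CK.W.idx).val = 2 := rfl
  rcases r with p | a | l | i <;> rcases r' with p' | a' | l' | i' <;>
    obtain ⟨h1, h2, h3, h4⟩ := mkKey_inj.mp h
  all_goals (try have := CK.G_idx_ge l)
  all_goals (try have := CK.G_idx_ge l')
  all_goals (try have := GC.kind_lt i)
  all_goals (try have := GC.kind_lt i')
  all_goals first
    | omega
    | exact ⟨congrArg _ (Subtype.ext (Prod.ext (Fin.ext h2) (Fin.ext h3))), h4⟩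
    | exact ⟨congrArg _ (Fin.ext h2), h4⟩
    | exact ⟨congrArg _ (CK.G.inj (CK.idx_injective (Fin.ext (by omega)))), h4⟩
    | exact ⟨congrArg _ (GC.key_data i i' (Fin.ext (by omega)) (Fin.ext h2) h3), h4⟩

/-- Pattern rows: the roles, plus padding copies of one marker role, to make the pattern square. -/
abbrev HR' : Type := HR ⊕ Fin (Fintype.card HC)

/-- Pattern columns: the roles, plus padding copies of one marker role. -/
abbrev HC' : Type := HC ⊕ Fin (Fintype.card HR)

def HR'.role : HR' → HR
  | .inl r => r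
  | .inr _ => .w 2

def HC'.role : HC' → HC
  | .inl r => r
  | .inr _ => .w 2

def HR'.dup : HR' → ℕ
  | .inl _ => 0
  | .inr i => i.val + 1

def HC'.dup : HC' → ℕ
  | .inl _ => 0
  | .inr i => i.val + 1

def HR'.key (r : HR') : Key := (HR'.role r).key (HR'.dup r)

def HC'.key (r : HC') : Key := (HC'.role r).key (HC'.dup r)

theorem HR'.key_injective : Function.Injective HR'.key := by
  intro a b h
  obtain ⟨h1, h2⟩ := HR.key_injective h
  rcases a with a | a <;> rcases b with b | b <;>
    simp [HR'.role, HR'.dup] at h1 h2 ⊢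
  · exact h1
  · exact Fin.ext h2

theorem HC'.key_injective : Function.Injective HC'.key := by
  intro a b h
  obtain ⟨h1, h2⟩ := HC.key_injective h
  rcases a with a | a <;> rcases b with b | b <;>
    simp [HC'.role, HC'.dup] at h1 h2 ⊢
  · exact h1
  · exact Fin.ext h2

/-- The size of the pattern. -/
def size : ℕ := Fintype.card HR + Fintype.card HC

theorem card_HR' : Fintype.card HR' = size := by simp [size]

theorem card_HC' : Fintype.card HC' = size := by simp [size, add_comm]

theorem HR'.dup_lt (r : HR') : HR'.dup r < size := by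
  rcases r with r | i
  · have : 0 < Fintype.card HR := Fintype.card_pos_iff.mpr ⟨r⟩
    simp [HR'.dup, size]; omega
  · have : 0 < Fintype.card HR := Fintype.card_pos_iff.mpr ⟨HR.w 0⟩
    have := i.isLt
    simp only [HR'.dup, size]; omega

theorem HC'.dup_lt (r : HC') : HC'.dup r < size := by
  rcases r with r | i
  · have : 0 < Fintype.card HC := Fintype.card_pos_iff.mpr ⟨r⟩
    simp [HC'.dup, size]; omega
  · have : 0 < Fintype.card HC := Fintype.card_pos_iff.mpr ⟨HC.w 0⟩
    have := i.isLt
    simp only [HC'.dup, size]; omega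

noncomputable def hrowOf : Fin size ≃ HR' := sortedEquiv HR'.key card_HR'

noncomputable def hcolOf : Fin size ≃ HC' := sortedEquiv HC'.key card_HC'

theorem hrow_key_strictMono : StrictMono (fun i => HR'.key (hrowOf i)) :=
  (sortedEquiv_monotone HR'.key card_HR').strictMono_of_injective
    (HR'.key_injective.comp hrowOf.injective)

theorem hcol_key_strictMono : StrictMono (fun i => HC'.key (hcolOf i)) :=
  (sortedEquiv_monotone HC'.key card_HC').strictMono_of_injective
    (HC'.key_injective.comp hcolOf.injective)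

/-- The forbidden pattern. -/
noncomputable def pattern (i j : Fin size) : Bool :=
  hRel (HR'.role (hrowOf i)) (HC'.role (hcolOf j))

end Vale.Agent.P037
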