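import Mathlib
import Vale.Agent.P037.Pattern

namespace Vale.Agent.P037

variable {L : ℕ}

/-- The dyadic cell of level `b` containing `c`. -/
def cellIdx (L b c : ℕ) : ℕ := c / 2 ^ (L - b)

/-- The parity of the level `b` cell. -/
def bit (L b c : ℕ) : Bool := decide (cellIdx L b c % 2 = 1)

/-- Row items of the main zone. -/
inductive MR (L : ℕ) : Type
  | x (s : Bool) (a : Fin (L + 1)) | v (j : Fin (L + 1)) (b : Bool) | p (j : Fin (L + 1)) | t
  deriving DecidableEq, Fintype

/-- Column items of the main zone. -/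
inductive MC (L : ℕ) : Type
  | y (s : Bool) (b : Fin (L + 1)) | u (j : Fin (L + 1)) (b : Bool)
  deriving DecidableEq, Fintype

def MR.kind : MR L → RK
  | .x _ _ => .X
  | .v _ _ => .V
  | .p _ => .P
  | .t => .T

def MC.kind : MC L → CK
  | .y _ _ => .Y
  | .u _ _ => .U

/-- Position of a nested main item: outer level zero items first and last, then by cell. -/
def pos (L : ℕ) (s : Bool) (a c : ℕ) : ℕ :=
  if a = 0 then (if s then 2 ^ L * (2 * L + 2) + 1 else 0)
  else c * (2 * L + 2) + (if s then 2 * L + 1 - a else a) + 1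

def MR.loc : MR L → ℕ → ℕ
  | .x s a, e => pos L s a.val e
  | .v j _, _ => j.val
  | .p j, _ => j.val
  | .t, _ => 0

def MC.loc : MC L → ℕ → ℕ
  | .y s b, e => pos L s b.val e
  | .u j _, _ => j.val

/-- Entries inside the main zone. -/
def mRel : MR L → ℕ → MC L → ℕ → Bool
  | .x _ a, e, .y _ b, f => decide (b.val ≤ a.val ∧ cellIdx L b.val e = cellIdx L b.val f)
  | .x _ a, e, .u j β, _ => decide (a = j ∧ bit L a.val e = β)
  | .v j β, _, .y _ b, f => decide (b = j ∧ bit L b.val f = β)
  | .v j β, _, .u j' β', _ => decide (j = j' ∧ β = β')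
  | .p j, _, .y _ b, _ => decide (b.val + 1 = j.val)
  | .p j, _, .u j' _, _ => decide (j = j')
  | .t, _, .y _ b, _ => decide (b.val = L)
  | .t, _, .u _ _, _ => false

/-- Row classes of the host. -/
inductive Row (L : ℕ) : Type
  | z (t : Fin 54) | w (zn : Fin 5) | dec (d : Fin 4) (i : GR) | main (i : MR L)
  deriving DecidableEq, Fintype

/-- Column classes of the host. -/
inductive Col (L : ℕ) : Type
  | q (p : Pair) | w (zn : Fin 5) | g (l : RK) | dec (d : Fin 4) (j : GC) | main (j : MC L)
  deriving DecidableEq, Fintype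

def Row.kind : Row L → Option RK
  | .z _ => none
  | .w _ => some .W
  | .dec _ i => some i.kind
  | .main i => some i.kind

def Col.kind : Col L → Option CK
  | .q _ => none
  | .w _ => some .W
  | .g l => some (.G l)
  | .dec _ j => some j.kind
  | .main j => some j.kind

def decZone : Fin 4 → Fin 5 := ![0, 1, 3, 4]

theorem decZone_injective : Function.Injective decZone := by decide

theorem decZone_ne_two : ∀ d, decZone d ≠ 2 := by decide

def Row.zone : Row L → Fin 5
  | .z _ => 0
  | .w a => a
  | .dec d _ => decZone d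
  | .main _ => 2

def Col.zone : Col L → Fin 5
  | .q _ => 0
  | .w a => a
  | .g _ => 0
  | .dec d _ => decZone d
  | .main _ => 2

/-- Compatibility of zone markers. -/
def table (a b : Fin 5) : Bool :=
  decide (a = b ∨ (a = 0 ∧ b = 3) ∨ (a = 1 ∧ b = 4))

/-- The host matrix as a table over classes and coordinates. -/
def rel : Row L → ℕ → Col L → ℕ → Bool
  | .z t, _, .q p, _ => decide (t = p.1.1 ∨ t = p.1.2)
  | .z t, _, c, _ => decide (c.kind.map code = some t)
  | _, _, .q _, _ => false
  | r, _, .g l, _ => decide (r.kind = some l)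
  | .w a, _, .w b, _ => table a b
  | .w a, _, c, _ => decide (a = c.zone)
  | r, _, .w b, _ => decide (r.zone = b)
  | .dec d i, _, .dec d' j, _ => decide (d = d') && gRel i j
  | .main i, e, .main j, f => mRel i e j f
  | _, _, _, _ => false

def Row.key : Row L → ℕ → ℕ → Key
  | .z t, _, d => mkKey 0 t.val 0 d
  | .w a, _, d => mkKey (RK.W.idx.val + 1) a.val 0 d
  | .dec δ i, _, d => mkKey (i.kind.idx.val + 1) (decZone δ).val i.loc d
  | .main i, e, d => mkKey (i.kind.idx.val + 1) 2 (i.loc e) d

def Col.key : Col L → ℕ → ℕ → Key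
  | .q p, _, d => mkKey 0 p.1.1.val p.1.2.val d
  | .w a, _, d => mkKey (CK.W.idx.val + 1) a.val 0 d
  | .g l, _, d => mkKey ((CK.G l).idx.val + 1) 0 0 d
  | .dec δ j, _, d => mkKey (j.kind.idx.val + 1) (decZone δ).val j.loc d
  | .main j, e, d => mkKey (j.kind.idx.val + 1) 2 (j.loc e) d

/-- Row indices: class, coordinate, tie index, multiplicity. -/
abbrev RI (L : ℕ) : Type := Row L × Fin (2 ^ L) × Fin size × Fin (Fintype.card (Col L))

/-- Column indices. -/
abbrev CI (L : ℕ) : Type := Col L × Fin (2 ^ L) × Fin size × Fin (Fintype.card (Row L))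

/-- Number of classes times multiplicity. -/
def blow (L : ℕ) : ℕ := Fintype.card (Row L) * Fintype.card (Col L) * size

/-- The side of the host matrix. -/
def dim (L : ℕ) : ℕ := blow L * 2 ^ L

theorem card_RI (L : ℕ) : Fintype.card (RI L) = dim L := by
  simp [dim, blow]; ring

theorem card_CI (L : ℕ) : Fintype.card (CI L) = dim L := by
  simp [dim, blow]; ring

def RI.key (r : RI L) : Key := r.1.key r.2.1.val r.2.2.1.val

def CI.key (r : CI L) : Key := r.1.key r.2.1.val r.2.2.1.val

noncomputable def rowOf (L : ℕ) : Fin (dim L) ≃ RI L := sortedEquiv RI.key (card_RI L)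

noncomputable def colOf (L : ℕ) : Fin (dim L) ≃ CI L := sortedEquiv CI.key (card_CI L)

/-- The host matrix. -/
noncomputable def host (L : ℕ) (i j : Fin (dim L)) : Bool :=
  rel (rowOf L i).1 (rowOf L i).2.1.val (colOf L j).1 (colOf L j).2.1.val

theorem cellIdx_zero {L c : ℕ} (h : c < 2 ^ L) : cellIdx L 0 c = 0 := by
  simp [cellIdx, Nat.div_eq_of_lt h]

theorem bit_zero {L c : ℕ} (h : c < 2 ^ L) : bit L 0 c = false := by
  simp [bit, cellIdx_zero h]

theorem cellIdx_top (L c : ℕ) : cellIdx L L c = c := by simp [cellIdx]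

theorem cellIdx_coarsen {L b b' c c' : ℕ} (h : b ≤ b') (hL : b' ≤ L)
    (e : cellIdx L b' c = cellIdx L b' c') : cellIdx L b c = cellIdx L b c' := by
  have hx : L - b = (L - b') + (b' - b) := by omega
  unfold cellIdx at *
  rw [hx, pow_add, ← Nat.div_div_eq_div_mul, ← Nat.div_div_eq_div_mul, e]

theorem cellIdx_mono {L b c c' : ℕ} (h : c ≤ c') : cellIdx L b c ≤ cellIdx L b c' :=
  Nat.div_le_div_right h

theorem cellIdx_succ {L b c c' : ℕ} (hL : b + 1 ≤ L) (e : cellIdx L b c = cellIdx L b c')
    (hb : bit L (b + 1) c = bit L (b + 1) c') : cellIdx L (b + 1) c = cellIdx L (b + 1) c' := by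
  have hx : L - b = (L - (b + 1)) + 1 := by omega
  unfold bit cellIdx at *
  rw [hx, pow_succ, ← Nat.div_div_eq_div_mul, ← Nat.div_div_eq_div_mul] at e
  simp only [decide_eq_decide] at hb
  omega

end Vale.Agent.P037
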