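import Mathlib
import Vale.Agent.P037.Host

namespace Vale.Agent.P037

variable {L : ℕ}

theorem gRel_laminar : ∀ j j' : GC, j.kind = j'.kind → ∀ i, gRel i j = true → gRel i j' = true →
    (∀ i', GR.kind i' = i.kind → gRel i' j = true → gRel i' j' = true) ∨
    (∀ i', GR.kind i' = i.kind → gRel i' j' = true → gRel i' j = true) := by decide

theorem table_laminar : ∀ a₁ a₂ a₃ b b' : Fin 5, table a₁ b = true → table a₁ b' = true →
    table a₂ b = true → table a₃ b' = true → table a₂ b' = true ∨ table a₃ b = true := by decide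

theorem mRel_laminar {i₁ i₂ i₃ : MR L} {e₁ e₂ e₃ : ℕ} {j j' : MC L} {f f' : ℕ}
    (h2 : i₂.kind = i₁.kind) (h3 : i₃.kind = i₁.kind) (hj : j.kind = j'.kind)
    (a : mRel i₁ e₁ j f = true) (b : mRel i₁ e₁ j' f' = true) (c : mRel i₂ e₂ j f = true)
    (d : mRel i₃ e₃ j' f' = true) : mRel i₂ e₂ j' f' = true ∨ mRel i₃ e₃ j f = true := by
  cases i₁ <;> cases i₂ <;> simp only [MR.kind, reduceCtorEq] at h2 <;>
    cases i₃ <;> simp only [MR.kind, reduceCtorEq] at h3 <;>
    cases j <;> cases j' <;> simp only [MC.kind, reduceCtorEq] at hj <;>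
    simp only [mRel, decide_eq_true_eq, Bool.false_eq_true] at a b c d ⊢
  case x.x.x.y.y _ a₁ _ a₂ _ a₃ _ b₁ _ b₂ =>
    rcases le_total b₁.val b₂.val with hle | hle
    · refine Or.inr ⟨hle.trans d.1, ?_⟩
      have hL : b₂.val ≤ L := by omega
      calc cellIdx L b₁.val e₃ = cellIdx L b₁.val f' := cellIdx_coarsen hle hL d.2
        _ = cellIdx L b₁.val e₁ := (cellIdx_coarsen hle hL b.2).symm
        _ = cellIdx L b₁.val f := a.2
    · refine Or.inl ⟨hle.trans c.1, ?_⟩
      have hL : b₁.val ≤ L := by omega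
      calc cellIdx L b₂.val e₂ = cellIdx L b₂.val f := cellIdx_coarsen hle hL c.2
        _ = cellIdx L b₂.val e₁ := (cellIdx_coarsen hle hL a.2).symm
        _ = cellIdx L b₂.val f' := b.2
  all_goals (try left) <;> grind

theorem rel_g (r : Row L) (e : ℕ) (l : RK) (f : ℕ) (hr : r.kind ≠ none) :
    rel r e (.g l) f = decide (r.kind = some l) := by
  cases r <;> first | rfl | simp [Row.kind] at hr

theorem rel_q (r : Row L) (e : ℕ) (p : Pair) (f : ℕ) (hr : r.kind ≠ none) :
    rel r e (.q p) f = false := by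
  cases r <;> first | rfl | simp [Row.kind] at hr

theorem rel_z (t : Fin 54) (e : ℕ) {y : Col L} {κ : CK} (f : ℕ) (hy : y.kind = some κ) :
    rel (.z t) e y f = decide (code κ = t) := by
  cases y <;> simp [Col.kind] at hy <;> subst hy <;> simp [rel, Col.kind]

theorem Col.eq_g {y : Col L} {l : RK} (hy : y.kind = some (.G l)) : y = .g l := by
  cases y <;> simp [Col.kind] at hy
  · rw [hy]
  · rename_i d j; cases j <;> simp [GC.kind] at hy
  · rename_i j; cases j <;> simp [MC.kind] at hy

theorem Row.eq_w {r : Row L} (hr : r.kind = some .W) : r = .w r.zone := by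
  cases r <;> simp [Row.kind] at hr <;> try rfl
  · rename_i d i; cases i <;> simp [GR.kind] at hr
  · rename_i i; cases i <;> simp [MR.kind] at hr

theorem Col.eq_w {r : Col L} (hr : r.kind = some .W) : r = .w r.zone := by
  cases r <;> simp [Col.kind] at hr <;> try rfl
  · rename_i d i; cases i <;> simp [GC.kind] at hr
  · rename_i i; cases i <;> simp [MC.kind] at hr

theorem rel_w_col {r : Row L} (e : ℕ) (b : Fin 5) (f : ℕ) (hr : r.kind ≠ none)
    (hW : r.kind ≠ some .W) : rel r e (.w b) f = decide (r.zone = b) := by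
  cases r <;> first | rfl | simp [Row.kind] at hr hW

theorem rel_w_row (a : Fin 5) (e : ℕ) {y : Col L} {κ : CK} (f : ℕ) (hy : y.kind = some κ)
    (hκ : κ = .Y ∨ κ = .U) : rel (.w a) e y f = decide (a = y.zone) := by
  cases y <;> simp [Col.kind] at hy <;> first | rfl | (subst hy; simp at hκ)

theorem rel_item_zone {r : Row L} {e : ℕ} {y : Col L} {f : ℕ} (hr : r.kind ≠ none)
    (hW : r.kind ≠ some .W) {κ : CK} (hy : y.kind = some κ) (hκ : κ = .Y ∨ κ = .U)
    (h : rel r e y f = true) : r.zone = y.zone := by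
  cases r <;> simp [Row.kind] at hr hW <;> cases y <;> simp [Col.kind] at hy <;>
    (try (subst hy; simp at hκ; done)) <;> simp [rel, Row.zone, Col.zone] at h ⊢
  exact congrArg _ h.1

/-- Inside a kind of rows and a kind of columns, the sets of ones of the columns are laminar. -/
theorem rel_laminar {r₁ r₂ r₃ : Row L} {e₁ e₂ e₃ : ℕ} {y y' : Col L} {f f' : ℕ}
    (h1 : r₁.kind ≠ none) (h2 : r₂.kind = r₁.kind) (h3 : r₃.kind = r₁.kind)
    (hy : y.kind = y'.kind)
    (a : rel r₁ e₁ y f = true) (b : rel r₁ e₁ y' f' = true) (c : rel r₂ e₂ y f = true)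
    (d : rel r₃ e₃ y' f' = true) : rel r₂ e₂ y' f' = true ∨ rel r₃ e₃ y f = true := by
  rcases hκ : y.kind with _ | κ
  · cases y <;> simp [Col.kind] at hκ
    rw [rel_q _ _ _ _ h1] at a; simp at a
  have hκ' : y'.kind = some κ := hy ▸ hκ
  rcases κ with _ | _ | _ | l
  case W =>
    rw [Col.eq_w hκ] at a c ⊢
    rw [Col.eq_w hκ'] at b d ⊢
    by_cases hW : r₁.kind = some .W
    · rw [Row.eq_w hW] at a b
      rw [Row.eq_w (h2.trans hW)] at c ⊢
      rw [Row.eq_w (h3.trans hW)] at d ⊢
      exact table_laminar _ _ _ _ _ a b c d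
    · have h2' : r₂.kind ≠ none := h2 ▸ h1
      have h2W : r₂.kind ≠ some .W := h2 ▸ hW
      rw [rel_w_col _ _ _ h1 hW, decide_eq_true_eq] at a b
      rw [rel_w_col _ _ _ h2' h2W, decide_eq_true_eq] at c
      left
      rw [rel_w_col _ _ _ h2' h2W, decide_eq_true_eq]
      exact c.trans (a.symm.trans b)
  case G =>
    rw [Col.eq_g hκ] at a c ⊢
    rw [Col.eq_g hκ'] at b d ⊢
    have h2' : r₂.kind ≠ none := h2 ▸ h1
    left
    rw [rel_g _ _ _ _ h2'] at c ⊢
    exact c
  all_goals
    by_cases hW : r₁.kind = some .W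
    · rw [Row.eq_w hW, rel_w_row _ _ _ hκ (by simp), decide_eq_true_eq] at a
      rw [Row.eq_w hW, rel_w_row _ _ _ hκ' (by simp), decide_eq_true_eq] at b
      rw [Row.eq_w (h2.trans hW), rel_w_row _ _ _ hκ (by simp), decide_eq_true_eq] at c
      left
      rw [Row.eq_w (h2.trans hW), rel_w_row _ _ _ hκ' (by simp), decide_eq_true_eq]
      exact c.trans (a.symm.trans b)
    · have h2' : r₂.kind ≠ none := h2 ▸ h1
      have h3' : r₃.kind ≠ none := h3 ▸ h1
      have h2W : r₂.kind ≠ some .W := h2 ▸ hW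
      have h3W : r₃.kind ≠ some .W := h3 ▸ hW
      have za := rel_item_zone h1 hW hκ (by simp) a
      have zb := rel_item_zone h1 hW hκ' (by simp) b
      have zc := rel_item_zone h2' h2W hκ (by simp) c
      have zd := rel_item_zone h3' h3W hκ' (by simp) d
      cases r₁ <;> simp [Row.kind] at h1 hW <;> cases y <;> simp [rel] at a <;>
        cases y' <;> simp [rel] at b <;> (try (simp [Col.kind] at hκ hκ'; done)) <;>
        cases r₂ <;> simp [rel] at c <;> (try (simp [Row.kind] at h2'; done)) <;>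
        (try (simp [Row.kind] at h2W; done)) <;>
        cases r₃ <;> simp [rel] at d <;> (try (simp [Row.kind] at h3'; done)) <;>
        (try (simp [Row.kind] at h3W; done)) <;>
        simp only [Row.kind, Option.some.injEq] at h2 h3 <;>
        simp only [Col.kind, Option.some.injEq] at hy <;>
        simp only [rel, decide_eq_true_eq, Bool.and_eq_true]
      · obtain ⟨rfl, a⟩ := a
        obtain ⟨rfl, b⟩ := b
        obtain ⟨rfl, c⟩ := c
        obtain ⟨rfl, d⟩ := d
        rcases gRel_laminar _ _ hy _ a b with h | h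
        · exact Or.inl ⟨rfl, h _ h2 c⟩
        · exact Or.inr ⟨rfl, h _ h3 d⟩
      · exact mRel_laminar h2 h3 hy a b c d

end Vale.Agent.P037
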