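import Mathlib
import Vale.Agent.P037.Laminar

namespace Vale.Agent.P037

variable {L : ℕ}

/-- A copy of the pattern in the host, seen on the roles. -/
structure RoleCopy (L : ℕ) where
  R : HR → Row L
  Re : HR → ℕ
  Rd : HR → ℕ
  C : HC → Col L
  Ce : HC → ℕ
  Cd : HC → ℕ
  Re_lt : ∀ r, Re r < 2 ^ L
  Ce_lt : ∀ c, Ce c < 2 ^ L
  agree : ∀ r c, rel (R r) (Re r) (C c) (Ce c) = hRel r c
  rmono : ∀ r r', r.key 0 < r'.key 0 → (R r).key (Re r) (Rd r) ≤ (R r').key (Re r') (Rd r')
  cmono : ∀ c c', c.key 0 < c'.key 0 → (C c).key (Ce c) (Cd c) ≤ (C c').key (Ce c') (Cd c')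

theorem hRel_z_kind (t : Fin 54) {c : HC} {κ : CK} (hc : c.kind = some κ) :
    hRel (.z t) c = decide (code κ = t) := by
  cases c <;> simp [HC.kind] at hc <;> subst hc <;> simp [hRel, HC.kind]

theorem exists_pair {a b : Fin 54} (h : a ≠ b) :
    ∃ p : Pair, ∀ t, hRel (.z t) (.q p) = decide (t = a ∨ t = b) := by
  rcases lt_or_gt_of_ne h with h | h
  · exact ⟨⟨(a, b), h⟩, fun t => rfl⟩
  · exact ⟨⟨(b, a), h⟩, fun t => by simp [hRel, or_comm]⟩

theorem strictMono_fin_eq_id {n : ℕ} {f : Fin n → Fin n} (hf : StrictMono f) : f = id := by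
  funext i
  refine le_antisymm ?_ hf.le_apply
  exact hf.apply_le (x := i)

namespace RoleCopy

variable (D : RoleCopy L)

theorem col_kind_some {b : Fin 54} {a : Fin 54} (p : Pair)
    (hp : ∀ t, hRel (.z t) (.q p) = decide (t = a ∨ t = b))
    (ha : (D.R (.z a)).kind ≠ none) : ∃ κ, (D.C (.q p)).kind = some κ := by
  have h := D.agree (.z a) (.q p)
  rw [hp] at h
  rcases hC : D.C (.q p) with q | z | l | ⟨d, j⟩ | j
  · rw [hC, rel_q _ _ _ _ ha] at h; simp at h
  all_goals exact ⟨_, rfl⟩

theorem z_class_inj {a b : Fin 54} {t : Fin 54} (ha : D.R (.z a) = .z t)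
    (hb : D.R (.z b) = .z t) : a = b := by
  by_contra hne
  obtain ⟨u, hu⟩ : ∃ u : Fin 54, u ∉ ({a, b} : Finset (Fin 54)) := by
    by_contra hc
    have h1 : (Finset.univ : Finset (Fin 54)) ⊆ {a, b} := fun u _ => by
      by_contra hu
      exact hc ⟨u, hu⟩
    have h2 := (Finset.card_le_card h1).trans (Finset.card_insert_le _ _)
    simp at h2
  simp only [Finset.mem_insert, Finset.mem_singleton, not_or] at hu
  obtain ⟨p, hp⟩ := exists_pair (Ne.symm hu.1)
  have h1 := D.agree (.z a) (.q p)
  have h2 := D.agree (.z b) (.q p)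
  rw [hp, ha] at h1
  rw [hp, hb] at h2
  have key : rel (Row.z t) (D.Re (.z a)) (D.C (.q p)) (D.Ce (.q p))
      = rel (Row.z t) (D.Re (.z b)) (D.C (.q p)) (D.Ce (.q p)) := by
    cases D.C (.q p) <;> rfl
  rw [h1, h2] at key
  simp [Ne.symm hne, Ne.symm hu.2] at key

theorem z_count_le {a : Fin 54} (ha : (D.R (.z a)).kind ≠ none) :
    (Finset.univ.filter fun b => (D.R (.z b)).kind = none).card ≤ Fintype.card CK := by
  classical
  have hex : ∀ b : {b : Fin 54 // (D.R (.z b)).kind = none}, ∃ p : Pair, ∃ κ : CK,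
      (∀ t, hRel (.z t) (.q p) = decide (t = a ∨ t = b.1)) ∧
      (D.C (.q p)).kind = some κ := by
    intro b
    have hne : a ≠ b.1 := fun h => ha (h ▸ b.2)
    obtain ⟨p, hp⟩ := exists_pair hne
    obtain ⟨κ, hκ⟩ := D.col_kind_some p hp ha
    exact ⟨p, κ, hp, hκ⟩
  choose P K hP hK using hex
  have hinj : Function.Injective K := by
    intro b b' hbb
    obtain ⟨t, ht⟩ : ∃ t, D.R (.z b.1) = .z t := by
      have := b.2
      cases h : D.R (.z b.1) <;> simp [h, Row.kind] at this
      exact ⟨_, rfl⟩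
    obtain ⟨t', ht'⟩ : ∃ t, D.R (.z b'.1) = .z t := by
      have := b'.2
      cases h : D.R (.z b'.1) <;> simp [h, Row.kind] at this
      exact ⟨_, rfl⟩
    have h1 := D.agree (.z b.1) (.q (P b))
    have h2 := D.agree (.z b'.1) (.q (P b'))
    rw [hP, ht, rel_z _ _ _ (hK b)] at h1
    rw [hP, ht', rel_z _ _ _ (hK b')] at h2
    simp at h1 h2
    rw [hbb] at h1
    rw [← h1] at ht
    rw [← h2] at ht'
    exact Subtype.ext (D.z_class_inj ht ht')
  have := Fintype.card_le_of_injective K hinj
  rwa [Fintype.card_subtype] at this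

theorem kind_count_le (l : RK) :
    (Finset.univ.filter fun b => (D.R (.z b)).kind = some l).card ≤ Fintype.card CK + 1 := by
  classical
  rcases Finset.eq_empty_or_nonempty
    (Finset.univ.filter fun b => (D.R (.z b)).kind = some l) with h | ⟨a, ha⟩
  · rw [h]; simp
  simp only [Finset.mem_filter, Finset.mem_univ, true_and] at ha
  have ha' : (D.R (.z a)).kind ≠ none := by simp [ha]
  have hex : ∀ b : {b : Fin 54 // (D.R (.z b)).kind = some l ∧ b ≠ a}, ∃ p : Pair, ∃ κ : CK,
      (∀ t, hRel (.z t) (.q p) = decide (t = a ∨ t = b.1)) ∧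
      (D.C (.q p)).kind = some κ := by
    intro b
    obtain ⟨p, hp⟩ := exists_pair (Ne.symm b.2.2)
    obtain ⟨κ, hκ⟩ := D.col_kind_some p hp ha'
    exact ⟨p, κ, hp, hκ⟩
  choose P K hP hK using hex
  have hinj : Function.Injective K := by
    intro b b' hbb
    by_contra hne
    have hne' : b.1 ≠ b'.1 := fun h => hne (Subtype.ext h)
    have h1 := D.agree (.z a) (.q (P b))
    have h2 := D.agree (.z a) (.q (P b'))
    have h3 := D.agree (.z b.1) (.q (P b))
    have h4 := D.agree (.z b'.1) (.q (P b'))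
    have h5 := D.agree (.z b.1) (.q (P b'))
    have h6 := D.agree (.z b'.1) (.q (P b))
    rw [hP] at h1 h2 h3 h4 h5 h6
    simp [b.2.2, b'.2.2, hne', Ne.symm hne'] at h1 h2 h3 h4 h5 h6
    rcases rel_laminar ha' (b.2.1.trans ha.symm) (b'.2.1.trans ha.symm)
      ((hK b).trans (hbb ▸ (hK b').symm)) h1 h2 h3 h4 with h | h
    · rw [h5] at h; exact Bool.false_ne_true h
    · rw [h6] at h; exact Bool.false_ne_true h
  have := Fintype.card_le_of_injective K hinj
  rw [Fintype.card_subtype] at this
  calc (Finset.univ.filter fun b => (D.R (.z b)).kind = some l).card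
      ≤ (insert a (Finset.univ.filter fun b => (D.R (.z b)).kind = some l ∧ b ≠ a)).card := by
        apply Finset.card_le_card
        intro b hb
        by_cases hba : b = a
        · simp [hba]
        · simp only [Finset.mem_filter, Finset.mem_univ, true_and] at hb
          simp [hb, hba]
    _ ≤ _ := (Finset.card_insert_le _ _).trans (Nat.succ_le_succ this)

theorem card_CK : Fintype.card CK = 8 := by decide

/-- Every anchor row of a copy lies in an anchor class. -/
theorem z_kind (a : Fin 54) : (D.R (.z a)).kind = none := by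
  by_contra ha
  have h0 := D.z_count_le ha
  have hl := fun l => D.kind_count_le l
  have hsum := Finset.card_eq_sum_card_fiberwise
    (s := (Finset.univ : Finset (Fin 54))) (t := (Finset.univ : Finset (Option RK)))
    (f := fun b => (D.R (.z b)).kind) (fun _ _ => by simp)
  rw [Fintype.sum_option, Finset.card_univ, Fintype.card_fin] at hsum
  have hle : (∑ l : RK, (Finset.univ.filter fun b => (D.R (.z b)).kind = some l).card)
      ≤ ∑ _l : RK, 9 := Finset.sum_le_sum fun l _ => by
    have := hl l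
    rw [card_CK] at this
    exact this
  rw [card_CK] at h0
  simp only [Finset.sum_const, Finset.card_univ, smul_eq_mul] at hle
  have hRK : Fintype.card RK = 5 := by decide
  rw [hRK] at hle
  omega

/-- The anchor rows land in their own classes. -/
theorem z_eq (a : Fin 54) : D.R (.z a) = .z a := by
  have hex : ∀ b, ∃ t, D.R (.z b) = .z t := by
    intro b
    have := D.z_kind b
    cases h : D.R (.z b) <;> simp [h, Row.kind] at this
    exact ⟨_, rfl⟩
  choose T hT using hex
  have hmono : StrictMono T := by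
    intro b b' hbb
    have hk : (HR.z b).key 0 < (HR.z b').key 0 := mkKey_lt.mpr (Or.inr ⟨rfl, Or.inl hbb⟩)
    have := D.rmono _ _ hk
    rw [hT b, hT b'] at this
    have hle := mkKey_le.mp this
    have hne : T b ≠ T b' := fun h => (ne_of_lt hbb) (D.z_class_inj (hT b) (h ▸ hT b'))
    rcases hle with h | ⟨-, h | ⟨h, -⟩⟩
    · omega
    · exact h
    · exact absurd (Fin.ext h) hne
  rw [hT a, strictMono_fin_eq_id hmono]
  rfl

/-- Columns are forced into their kind. -/
theorem col_kind {c : HC} {κ : CK} (hc : c.kind = some κ) : (D.C c).kind = some κ := by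
  rcases hC : (D.C c).kind with _ | κ'
  · exfalso
    cases h : D.C c <;> simp [h, Col.kind] at hC
    rename_i p
    have h1 := D.agree (.z p.1.1) c
    have h2 := D.agree (.z p.1.2) c
    rw [D.z_eq, h, hRel_z_kind _ hc] at h1 h2
    simp [rel] at h1 h2
    exact (ne_of_lt p.2) (h1.symm.trans h2)
  · have h1 := D.agree (.z (code κ)) c
    rw [D.z_eq, rel_z _ _ _ hC, hRel_z_kind _ hc] at h1
    simp at h1
    rw [code_injective h1]

/-- Rows are forced into their kind. -/
theorem row_kind {r : HR} {l : RK} (hr : r.kind = some l) : (D.R r).kind = some l := by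
  have hg := Col.eq_g (D.col_kind (c := .g l) rfl)
  have h := D.agree r (.g l)
  have htrue : hRel r (.g l) = true := by
    cases r <;> simp [HR.kind] at hr <;> simp [hRel, HR.kind, hr]
  rw [hg, htrue] at h
  have hne : (D.R r).kind ≠ none := by
    intro hn
    cases hR : D.R r <;> simp [hR, Row.kind] at hn
    rename_i t
    have hk : (HR.z 53).key 0 < r.key 0 := by
      cases r <;> simp [HR.kind] at hr <;> exact mkKey_lt.mpr (Or.inl (by omega))
    have hle := D.rmono _ _ hk
    rw [D.z_eq, hR] at hle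
    have hle := mkKey_le.mp hle
    rw [hR, rel_z _ _ _ (κ := .G l) rfl, decide_eq_true_eq] at h
    have := code_lt (.G l)
    rw [h] at this
    have h53 : ((53 : Fin 54) : ℕ) = 53 := rfl
    rcases hle with h' | ⟨-, h' | ⟨h', -⟩⟩ <;> omega
  rw [rel_g _ _ _ _ hne, decide_eq_true_eq] at h
  exact h

end RoleCopy

end Vale.Agent.P037
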