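import Mathlib
import Vale.Agent.P037.Forcing

namespace Vale.Agent.P037

variable {L : ℕ}

theorem pos_le {s s' : Bool} {a a' c c' : ℕ} (ha : a ≠ 0) (ha' : a' ≠ 0) (hL : a' ≤ L)
    (h : pos L s a c ≤ pos L s' a' c') : c ≤ c' := by
  unfold pos at h
  rw [if_neg ha, if_neg ha'] at h
  by_contra hlt
  have h1 : (c' + 1) * (2 * L + 2) ≤ c * (2 * L + 2) := Nat.mul_le_mul_right _ (by omega)
  rw [add_mul] at h1
  split_ifs at h <;> omega

theorem pos_between {s₁ s₂ s₃ : Bool} {a₁ a₂ a₃ c₁ c₂ c₃ b : ℕ}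
    (hc₁ : c₁ < 2 ^ L) (hc₂ : c₂ < 2 ^ L) (hb₁ : b ≤ a₁) (hb₃ : b ≤ a₃) (ha₂ : a₂ ≠ 0)
    (hL₂ : a₂ ≤ L) (hL₃ : a₃ ≤ L)
    (h12 : pos L s₁ a₁ c₁ ≤ pos L s₂ a₂ c₂) (h23 : pos L s₂ a₂ c₂ ≤ pos L s₃ a₃ c₃)
    (he : cellIdx L b c₁ = cellIdx L b c₃) : cellIdx L b c₂ = cellIdx L b c₁ := by
  rcases Nat.eq_zero_or_pos b with hb | hb
  · subst hb
    rw [cellIdx_zero hc₁, cellIdx_zero hc₂]
  · have h1 := cellIdx_mono (L := L) (b := b) (pos_le (by omega) ha₂ hL₂ h12)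
    have h2 := cellIdx_mono (L := L) (b := b) (pos_le ha₂ (by omega) hL₃ h23)
    omega

theorem key_zone_le {r r' : Row L} {e e' d d' : ℕ} {l : RK} (hr : r.kind = some l)
    (hr' : r'.kind = some l) (h : r.key e d ≤ r'.key e' d') : r.zone ≤ r'.zone := by
  have hform : ∀ (r : Row L) (e d : ℕ), r.kind = some l →
      ∃ c, r.key e d = mkKey (l.idx.val + 1) r.zone.val c d := by
    intro r e d hr
    cases r with
    | z t => simp [Row.kind] at hr
    | w a => exact ⟨0, by rw [← Option.some.inj hr]; rfl⟩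
    | dec δ i => exact ⟨i.loc, by rw [← Option.some.inj hr]; rfl⟩
    | main i => exact ⟨i.loc e, by rw [← Option.some.inj hr]; rfl⟩
  obtain ⟨c, hc⟩ := hform r e d hr
  obtain ⟨c', hc'⟩ := hform r' e' d' hr'
  rw [hc, hc'] at h
  have h := mkKey_le.mp h
  rw [Fin.le_def]
  omega

theorem main_loc_le {i i' : MR L} {e e' d d' : ℕ} (hk : i.kind = i'.kind)
    (h : (Row.main i).key e d ≤ (Row.main i').key e' d') : i.loc e ≤ i'.loc e' := by
  have h := mkKey_le.mp h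
  rw [hk] at h
  omega

theorem main_col_loc_le {i i' : MC L} {e e' d d' : ℕ} (hk : i.kind = i'.kind)
    (h : (Col.main i).key e d ≤ (Col.main i').key e' d') : i.loc e ≤ i'.loc e' := by
  have h := mkKey_le.mp h
  rw [hk] at h
  omega

theorem row_main {r : Row L} {k : RK} (hk : r.kind = some k) (hW : k ≠ .W) (hz : r.zone = 2) :
    ∃ i, r = .main i ∧ i.kind = k := by
  cases r <;> simp [Row.kind] at hk
  · exact absurd hk.symm hW
  · rename_i d i
    exact absurd hz (decZone_ne_two d)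
  · exact ⟨_, rfl, hk⟩

theorem col_main {r : Col L} {k : CK} (hk : r.kind = some k) (hY : k = .Y ∨ k = .U)
    (hz : r.zone = 2) : ∃ i, r = .main i ∧ i.kind = k := by
  cases r <;> simp [Col.kind] at hk
  · subst hk; simp at hY
  · subst hk; simp at hY
  · rename_i d i
    exact absurd hz (decZone_ne_two d)
  · exact ⟨_, rfl, hk⟩

theorem MR.eq_x {i : MR L} (h : i.kind = .X) : ∃ s a, i = .x s a := by
  cases i <;> simp [MR.kind] at h
  exact ⟨_, _, rfl⟩

theorem MR.eq_v {i : MR L} (h : i.kind = .V) : ∃ s a, i = .v s a := by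
  cases i <;> simp [MR.kind] at h
  exact ⟨_, _, rfl⟩

theorem MR.eq_p {i : MR L} (h : i.kind = .P) : ∃ s, i = .p s := by
  cases i <;> simp [MR.kind] at h
  exact ⟨_, rfl⟩

theorem MR.eq_t {i : MR L} (h : i.kind = .T) : i = .t := by
  cases i <;> simp [MR.kind] at h
  rfl

theorem MC.eq_y {i : MC L} (h : i.kind = .Y) : ∃ s a, i = .y s a := by
  cases i <;> simp [MC.kind] at h
  exact ⟨_, _, rfl⟩

theorem MC.eq_u {i : MC L} (h : i.kind = .U) : ∃ s a, i = .u s a := by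
  cases i <;> simp [MC.kind] at h
  exact ⟨_, _, rfl⟩

theorem zone_triple : ∀ a b c : Fin 5, table a b = false → table a c = false →
    table b c = false → a ≤ b → b ≤ c → a ≠ 2 → b ≠ 2 → c = 2 := by decide

namespace RoleCopy

variable (D : RoleCopy L)

theorem kindR (i : GR) : (D.R (.item i)).kind = some i.kind := D.row_kind rfl

theorem kindC (j : GC) : (D.C (.item j)).kind = some j.kind := D.col_kind rfl

theorem kindR_ne_none (i : GR) : (D.R (.item i)).kind ≠ none := by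
  rw [D.kindR]; simp

theorem kindR_ne_W (i : GR) : (D.R (.item i)).kind ≠ some .W := by
  rw [D.kindR]; cases i <;> simp [GR.kind]

theorem GC_YU (j : GC) : j.kind = .Y ∨ j.kind = .U := by
  cases j <;> simp [GC.kind]

theorem zone_item_wc (i : GR) : (D.R (.item i)).zone = (D.C (.w i.grp)).zone := by
  have h := D.agree (.item i) (.w i.grp)
  rw [Col.eq_w (D.col_kind (c := .w i.grp) rfl),
    rel_w_col _ _ _ (D.kindR_ne_none i) (D.kindR_ne_W i)] at h
  simp [hRel] at h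
  exact h

theorem zone_w_item (j : GC) : (D.R (.w j.grp)).zone = (D.C (.item j)).zone := by
  have h := D.agree (.w j.grp) (.item j)
  rw [Row.eq_w (D.row_kind (r := .w j.grp) rfl),
    rel_w_row _ _ _ (D.kindC j) (GC_YU j)] at h
  simp [hRel] at h
  exact h

theorem zone_w_wc (g g' : Fin 3) :
    table (D.R (.w g)).zone (D.C (.w g')).zone = decide (g = g') := by
  have h := D.agree (.w g) (.w g')
  rw [Row.eq_w (D.row_kind (r := .w g) rfl), Col.eq_w (D.col_kind (c := .w g') rfl)] at h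
  exact h

/-- The common zone of a gadget. -/
def Z (g : Fin 3) : Fin 5 := (D.C (.w g)).zone

theorem zoneR (i : GR) : (D.R (.item i)).zone = D.Z i.grp := D.zone_item_wc i

theorem zone_w (g : Fin 3) : (D.R (.w g)).zone = D.Z g := by
  obtain ⟨i, j, hi, hj, hij⟩ :
      ∃ i j, GR.grp i = g ∧ GC.grp j = g ∧ gRel i j = true ∧ GR.kind i = .X := by
    revert g; decide
  have h := D.agree (.item i) (.item j)
  have h' : hRel (.item i) (.item j) = true := hij.1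
  rw [h'] at h
  have := rel_item_zone (D.kindR_ne_none i) (D.kindR_ne_W i) (D.kindC j) (GC_YU j) h
  rw [D.zoneR, hi] at this
  rw [← hj, D.zone_w_item, hj]
  exact this.symm

theorem zoneC (j : GC) : (D.C (.item j)).zone = D.Z j.grp := by
  rw [← D.zone_w_item, D.zone_w]

theorem Z_table (g g' : Fin 3) : table (D.Z g) (D.Z g') = decide (g = g') := by
  have h := D.zone_w_wc g g'
  rw [D.zone_w] at h
  exact h

theorem Z_mono {i i' : GR} (hk : i.kind = i'.kind) (hg : i.grp.val < i'.grp.val) :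
    D.Z i.grp ≤ D.Z i'.grp := by
  have h := D.rmono (.item i) (.item i')
    (mkKey_lt.mpr (Or.inr ⟨by rw [hk], Or.inl hg⟩))
  have := key_zone_le (D.kindR i) (hk ▸ D.kindR i') h
  rwa [D.zoneR, D.zoneR] at this

/-- The first gadget cannot sit in the main zone. -/
theorem gadget_one_not_main : D.Z 0 ≠ 2 := by
  intro hz
  have mr : ∀ i : GR, i.grp = 0 → ∃ m, D.R (.item i) = .main m ∧ m.kind = i.kind := fun i hi =>
    row_main (D.kindR i) (by cases i <;> simp [GR.kind]) (by rw [D.zoneR, hi, hz])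
  have mc : ∀ i : GC, i.grp = 0 → ∃ m, D.C (.item i) = .main m ∧ m.kind = i.kind := fun i hi =>
    col_main (D.kindC i) (GC_YU i) (by rw [D.zoneC, hi, hz])
  obtain ⟨m₁, hm₁, km₁⟩ := mr .xm rfl
  obtain ⟨s₁, a₁, rfl⟩ := MR.eq_x km₁
  obtain ⟨m₂, hm₂, km₂⟩ := mr .x rfl
  obtain ⟨s₂, a₂, rfl⟩ := MR.eq_x km₂
  obtain ⟨m₃, hm₃, km₃⟩ := mr .xp rfl
  obtain ⟨s₃, a₃, rfl⟩ := MR.eq_x km₃
  obtain ⟨mv, hmv, kmv⟩ := mr .v rfl
  obtain ⟨jv, βv, rfl⟩ := MR.eq_v kmv
  obtain ⟨mp, hmp, kmp⟩ := mr .p rfl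
  obtain ⟨jp, rfl⟩ := MR.eq_p kmp
  obtain ⟨my, hmy, kmy⟩ := mc .y rfl
  obtain ⟨sy, b, rfl⟩ := MC.eq_y kmy
  obtain ⟨mu, hmu, kmu⟩ := mc .u rfl
  obtain ⟨ju, βu, rfl⟩ := MC.eq_u kmu
  obtain ⟨muc, hmuc, kmuc⟩ := mc .uc rfl
  obtain ⟨juc, βuc, rfl⟩ := MC.eq_u kmuc
  have e1 := D.agree (.item .xm) (.item .y)
  have e2 := D.agree (.item .xp) (.item .y)
  have e3 := D.agree (.item .x) (.item .y)
  have e4 := D.agree (.item .xm) (.item .u)
  have e5 := D.agree (.item .xp) (.item .u)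
  have e6 := D.agree (.item .x) (.item .uc)
  have e7 := D.agree (.item .v) (.item .y)
  have e8 := D.agree (.item .v) (.item .u)
  have e9 := D.agree (.item .p) (.item .y)
  have e10 := D.agree (.item .p) (.item .uc)
  simp only [hm₁, hm₂, hm₃, hmv, hmp, hmy, hmu, hmuc, rel, mRel, hRel, gRel,
    decide_eq_true_eq, decide_eq_false_iff_not] at e1 e2 e3 e4 e5 e6 e7 e8 e9 e10
  have hb₁ : a₁ = b := e4.1.trans (e8.1.symm.trans e7.1.symm)
  have hb₃ : a₃ = b := e5.1.trans (e8.1.symm.trans e7.1.symm)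
  have ha₂ : a₂.val = b.val + 1 := by rw [e9, e10, e6.1]
  have h12 := D.rmono (.item .xm) (.item .x)
    (mkKey_lt.mpr (Or.inr ⟨rfl, Or.inr ⟨rfl, Or.inl (by decide)⟩⟩))
  have h23 := D.rmono (.item .x) (.item .xp)
    (mkKey_lt.mpr (Or.inr ⟨rfl, Or.inr ⟨rfl, Or.inl (by decide)⟩⟩))
  rw [hm₁, hm₂] at h12
  rw [hm₂, hm₃] at h23
  have hbet : cellIdx L b.val (D.Re (.item .x)) = cellIdx L b.val (D.Re (.item .xm)) :=
    pos_between (D.Re_lt _) (D.Re_lt _) (show b.val ≤ a₁.val by rw [hb₁])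
      (show b.val ≤ a₃.val by rw [hb₃]) (show a₂.val ≠ 0 by omega) (by omega) (by omega)
      (main_loc_le (i := .x s₁ a₁) (i' := .x s₂ a₂) rfl h12)
      (main_loc_le (i := .x s₂ a₂) (i' := .x s₃ a₃) rfl h23) (e1.2.trans e2.2.symm)
  exact e3 ⟨by omega, hbet.trans e1.2⟩

/-- The second gadget cannot sit in the main zone. -/
theorem gadget_two_not_main : D.Z 1 ≠ 2 := by
  intro hz
  have mr : ∀ i : GR, i.grp = 1 → ∃ m, D.R (.item i) = .main m ∧ m.kind = i.kind := fun i hi =>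
    row_main (D.kindR i) (by cases i <;> simp [GR.kind]) (by rw [D.zoneR, hi, hz])
  have mc : ∀ i : GC, i.grp = 1 → ∃ m, D.C (.item i) = .main m ∧ m.kind = i.kind := fun i hi =>
    col_main (D.kindC i) (GC_YU i) (by rw [D.zoneC, hi, hz])
  obtain ⟨mx, hmx, kmx⟩ := mr .x' rfl
  obtain ⟨sx, a, rfl⟩ := MR.eq_x kmx
  obtain ⟨mv, hmv, kmv⟩ := mr .v' rfl
  obtain ⟨jv, βv, rfl⟩ := MR.eq_v kmv
  obtain ⟨mp, hmp, kmp⟩ := mr .p' rfl
  obtain ⟨jp, rfl⟩ := MR.eq_p kmp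
  obtain ⟨m₁, hm₁, km₁⟩ := mc .ym' rfl
  obtain ⟨s₁, b₁, rfl⟩ := MC.eq_y km₁
  obtain ⟨m₂, hm₂, km₂⟩ := mc .y' rfl
  obtain ⟨s₂, b₂, rfl⟩ := MC.eq_y km₂
  obtain ⟨m₃, hm₃, km₃⟩ := mc .yp' rfl
  obtain ⟨s₃, b₃, rfl⟩ := MC.eq_y km₃
  obtain ⟨mu, hmu, kmu⟩ := mc .u' rfl
  obtain ⟨ju, βu, rfl⟩ := MC.eq_u kmu
  have e1 := D.agree (.item .x') (.item .ym')
  have e2 := D.agree (.item .x') (.item .yp')
  have e3 := D.agree (.item .x') (.item .y')
  have e4 := D.agree (.item .x') (.item .u')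
  have e5 := D.agree (.item .v') (.item .y')
  have e6 := D.agree (.item .v') (.item .u')
  have e7 := D.agree (.item .p') (.item .ym')
  have e8 := D.agree (.item .p') (.item .yp')
  have e9 := D.agree (.item .p') (.item .u')
  simp only [hmx, hmv, hmp, hm₁, hm₂, hm₃, hmu, rel, mRel, hRel, gRel,
    decide_eq_true_eq, decide_eq_false_iff_not] at e1 e2 e3 e4 e5 e6 e7 e8 e9
  have hab : a = b₂ := e4.1.trans (e6.1.symm.trans e5.1.symm)
  have hcol : bit L a.val (D.Ce (.item .y')) = bit L a.val (D.Re (.item .x')) := by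
    rw [e4.2, ← e6.2, ← e5.2, hab]
  have hb₁ : b₁.val + 1 = a.val := by rw [e7, e9, e4.1]
  have hb₃ : b₃ = b₁ := Fin.ext (by omega)
  rw [hb₃] at e2 hm₃
  have h12 := D.cmono (.item .ym') (.item .y')
    (mkKey_lt.mpr (Or.inr ⟨rfl, Or.inr ⟨rfl, Or.inl (by decide)⟩⟩))
  have h23 := D.cmono (.item .y') (.item .yp')
    (mkKey_lt.mpr (Or.inr ⟨rfl, Or.inr ⟨rfl, Or.inl (by decide)⟩⟩))
  rw [hm₁, hm₂] at h12
  rw [hm₂, hm₃] at h23
  have hbet := pos_between (D.Ce_lt (.item .ym')) (D.Ce_lt (.item .y'))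
    (le_refl b₁.val) (le_refl b₁.val) (show b₂.val ≠ 0 by rw [← hab]; omega) (by omega)
    (by omega) (main_col_loc_le (i := .y s₁ b₁) (i' := .y s₂ b₂) rfl h12)
    (main_col_loc_le (i := .y s₂ b₂) (i' := .y s₃ b₁) rfl h23)
    (e1.2.symm.trans e2.2)
  have hsucc : cellIdx L (b₁.val + 1) (D.Re (.item .x')) =
      cellIdx L (b₁.val + 1) (D.Ce (.item .y')) :=
    cellIdx_succ (by omega) (e1.2.trans hbet.symm) (by rw [hb₁, hcol])
  rw [hb₁] at hsucc
  subst hab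
  exact e3 ⟨le_refl _, hsucc⟩

/-- Every copy has two distinguished positions in one finest cell. -/
theorem top_eq : D.Re (.item .x'') = D.Ce (.item .y'') := by
  have h01 := D.Z_table 0 1
  have h02 := D.Z_table 0 2
  have h12 := D.Z_table 1 2
  have hz : D.Z 2 = 2 := zone_triple _ _ _ (h01.trans rfl) (h02.trans rfl) (h12.trans rfl)
    (D.Z_mono (i := .xm) (i' := .x') rfl (by decide))
    (D.Z_mono (i := .x') (i' := .x'') rfl (by decide))
    D.gadget_one_not_main D.gadget_two_not_main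
  obtain ⟨mx, hmx, kmx⟩ := row_main (D.kindR .x'') (by simp [GR.kind])
    ((D.zoneR .x'').trans hz)
  obtain ⟨sx, a, rfl⟩ := MR.eq_x kmx
  obtain ⟨mt, hmt, kmt⟩ := row_main (D.kindR .t'') (by simp [GR.kind])
    ((D.zoneR .t'').trans hz)
  obtain rfl := MR.eq_t kmt
  obtain ⟨my, hmy, kmy⟩ := col_main (D.kindC .y'') (GC_YU .y'')
    ((D.zoneC .y'').trans hz)
  obtain ⟨sy, b, rfl⟩ := MC.eq_y kmy
  have e1 := D.agree (.item .x'') (.item .y'')
  have e2 := D.agree (.item .t'') (.item .y'')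
  simp only [hmx, hmt, hmy, rel, mRel, hRel, gRel, decide_eq_true_eq] at e1 e2
  have h := e1.2
  rwa [e2, cellIdx_top, cellIdx_top] at h

end RoleCopy

end Vale.Agent.P037
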