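import Mathlib
import Vale.Agent.P037.Sparse

namespace Vale.Agent.P037

variable {L : ℕ}

/-- Rows whose coordinate is the common cell of a sample. -/
def isCellR : Row L → Bool
  | .main (.x _ a) => decide (a.val ≠ 0)
  | _ => false

/-- Columns whose coordinate is the common cell of a sample. -/
def isCellC : Col L → Bool
  | .main (.y _ b) => decide (b.val ≠ 0)
  | _ => false

def coordR (c e : Fin (2 ^ L)) (r : Row L) : Fin (2 ^ L) := if isCellR r then c else e

def coordC (c e : Fin (2 ^ L)) (r : Col L) : Fin (2 ^ L) := if isCellC r then c else e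

theorem card_col_pos (L : ℕ) : 0 < Fintype.card (Col L) := Fintype.card_pos_iff.mpr ⟨.w 0⟩

theorem card_row_pos (L : ℕ) : 0 < Fintype.card (Row L) := Fintype.card_pos_iff.mpr ⟨.w 0⟩

/-- The sampled row of a class. -/
noncomputable def rowPt (c e : Fin (2 ^ L)) (r : Row L) (d : Fin size) : Fin (dim L) :=
  (rowOf L).symm (r, coordR c e r, d, ⟨0, card_col_pos L⟩)

/-- The sampled column of a class. -/
noncomputable def colPt (c e : Fin (2 ^ L)) (r : Col L) (d : Fin size) : Fin (dim L) :=
  (colOf L).symm (r, coordC c e r, d, ⟨0, card_row_pos L⟩)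

theorem host_pt (c e e' : Fin (2 ^ L)) (r : Row L) (q : Col L) (d d' : Fin size) :
    host L (rowPt c e r d) (colPt c e' q d')
      = rel r (coordR c e r).val q (coordC c e' q).val := by
  simp [host, rowPt, colPt]

/-- `B` agrees with the host on the protected part of a sample. -/
def Agrees (B : Fin (dim L) → Fin (dim L) → Bool) (c e e' : Fin (2 ^ L)) : Prop :=
  ∀ (r : Row L) (q : Col L) (d d' : Fin size), ¬(isCellR r = true ∧ isCellC q = true) →
    B (rowPt c e r d) (colPt c e' q d') = host L (rowPt c e r d) (colPt c e' q d')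

/-- Zones used when gadget `g` is placed in the main zone. -/
def zm (g h : Fin 3) : Fin 5 := ![![2, 3, 4], ![0, 2, 4], ![0, 1, 2]] g h

/-- Decoy indices used when gadget `g` is placed in the main zone. -/
def dz (g h : Fin 3) : Fin 4 := ![![0, 2, 3], ![0, 0, 3], ![0, 1, 0]] g h

theorem decZone_dz : ∀ g h, h ≠ g → decZone (dz g h) = zm g h := by decide

theorem zm_self : ∀ g, zm g g = 2 := by decide

theorem zm_strict : ∀ g h h' : Fin 3, h < h' → zm g h < zm g h' := by decide

theorem zm_table : ∀ g h h' : Fin 3, table (zm g h) (zm g h') = decide (h = h') := by decide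

theorem zm_inj (g : Fin 3) : Function.Injective (zm g) :=
  StrictMono.injective fun h h' => zm_strict g h h'

def embR (g : Fin 3) (mR : GR → MR L) : HR → Row L
  | .z t => .z t
  | .w h => .w (zm g h)
  | .item i => if i.grp = g then .main (mR i) else .dec (dz g i.grp) i

def embC (g : Fin 3) (mC : GC → MC L) : HC → Col L
  | .q p => .q p
  | .w h => .w (zm g h)
  | .g l => .g l
  | .item j => if j.grp = g then .main (mC j) else .dec (dz g j.grp) j

theorem embR_kind {g : Fin 3} {mR : GR → MR L} (hk : ∀ i, i.grp = g → (mR i).kind = i.kind)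
    (r : HR) : (embR g mR r).kind = r.kind := by
  cases r with
  | z t => rfl
  | w h => rfl
  | item i =>
    simp only [embR]; split_ifs with h
    · simp [Row.kind, HR.kind, hk i h]
    · rfl

theorem embC_kind {g : Fin 3} {mC : GC → MC L} (hk : ∀ i, i.grp = g → (mC i).kind = i.kind)
    (r : HC) : (embC g mC r).kind = r.kind := by
  cases r with
  | q t => rfl
  | w h => rfl
  | g l => rfl
  | item i =>
    simp only [embC]; split_ifs with h
    · simp [Col.kind, HC.kind, hk i h]
    · rfl

theorem embR_zone {g : Fin 3} {mR : GR → MR L} (i : GR) :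
    (embR g mR (.item i)).zone = zm g i.grp := by
  simp only [embR]; split_ifs with h
  · simp [Row.zone, h, zm_self]
  · simp [Row.zone, decZone_dz g _ h]

theorem embC_zone {g : Fin 3} {mC : GC → MC L} (i : GC) :
    (embC g mC (.item i)).zone = zm g i.grp := by
  simp only [embC]; split_ifs with h
  · simp [Col.zone, h, zm_self]
  · simp [Col.zone, decZone_dz g _ h]

theorem embR_key {g : Fin 3} {mR : GR → MR L} (hk : ∀ i, i.grp = g → (mR i).kind = i.kind)
    {co : Row L → ℕ}
    (hloc : ∀ i i', i.grp = g → i'.grp = g → i.kind = i'.kind → i.loc < i'.loc →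
      (mR i).loc (co (.main (mR i))) < (mR i').loc (co (.main (mR i'))))
    {r r' : HR} {d d' : ℕ} (h : r.key d < r'.key d') :
    (embR g mR r).key (co (embR g mR r)) d < (embR g mR r').key (co (embR g mR r')) d' := by
  have form : ∀ (i : GR) (d : ℕ), ∃ l, (embR g mR (.item i)).key (co (embR g mR (.item i))) d
      = mkKey (i.kind.idx.val + 1) (zm g i.grp).val l d ∧
      (i.grp = g → l = (mR i).loc (co (.main (mR i)))) ∧ (i.grp ≠ g → l = i.loc) := by
    intro i d
    by_cases hi : i.grp = g
    · refine ⟨(mR i).loc (co (.main (mR i))), ?_, fun _ => rfl, fun h => absurd hi h⟩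
      simp [embR, hi, Row.key, hk i hi, zm_self]
    · refine ⟨i.loc, ?_, fun h => absurd h hi, fun _ => rfl⟩
      simp [embR, hi, Row.key, decZone_dz g _ hi]
  have hW : (RK.W.idx : Fin 5).val = 4 := rfl
  rcases r with t | a | i <;> rcases r' with t' | a' | i'
  · exact h
  · exact mkKey_lt.mpr (Or.inl (by omega))
  · obtain ⟨l', hl', -⟩ := form i' d'
    rw [hl']; exact mkKey_lt.mpr (Or.inl (by omega))
  · exact absurd (mkKey_lt.mp h) (by omega)
  · rcases mkKey_lt.mp h with h1 | ⟨-, h2 | ⟨h2, h3⟩⟩
    · omega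
    · exact mkKey_lt.mpr (Or.inr ⟨rfl, Or.inl (zm_strict g a a' h2)⟩)
    · rw [Fin.ext h2]
      exact mkKey_lt.mpr (Or.inr ⟨rfl, Or.inr ⟨rfl, h3⟩⟩)
  · have := GR.kind_ne_W i'
    exact absurd (mkKey_lt.mp h) (by omega)
  · exact absurd (mkKey_lt.mp h) (by omega)
  · have := GR.kind_ne_W i
    obtain ⟨l, hl, -⟩ := form i d
    rw [hl]; exact mkKey_lt.mpr (Or.inl (by omega))
  · obtain ⟨l, hl, hlm, hld⟩ := form i d
    obtain ⟨l', hl', hlm', hld'⟩ := form i' d'
    rw [hl, hl']
    rcases mkKey_lt.mp h with h1 | ⟨h1, h2 | ⟨h2, h3⟩⟩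
    · exact mkKey_lt.mpr (Or.inl h1)
    · exact mkKey_lt.mpr (Or.inr ⟨h1, Or.inl (zm_strict g _ _ h2)⟩)
    · have hk' : i.kind = i'.kind := RK.idx_injective (Fin.ext (by omega))
      have hg : i.grp = i'.grp := Fin.ext h2
      rw [hg]
      refine mkKey_lt.mpr (Or.inr ⟨h1, Or.inr ⟨rfl, ?_⟩⟩)
      rcases h3 with h3 | ⟨h3, h4⟩
      · left
        by_cases hi : i.grp = g
        · rw [hlm hi, hlm' (hg ▸ hi)]
          exact hloc i i' hi (hg ▸ hi) hk' h3
        · rw [hld hi, hld' (hg ▸ hi)]
          exact h3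
      · obtain rfl := GR.key_data i i' (by rw [hk']) hg h3
        right
        refine ⟨?_, h4⟩
        by_cases hi : i.grp = g
        · rw [hlm hi, hlm' hi]
        · rw [hld hi, hld' hi]

theorem embC_key {g : Fin 3} {mC : GC → MC L} (hk : ∀ i, i.grp = g → (mC i).kind = i.kind)
    {co : Col L → ℕ}
    (hloc : ∀ i i', i.grp = g → i'.grp = g → i.kind = i'.kind → i.loc < i'.loc →
      (mC i).loc (co (.main (mC i))) < (mC i').loc (co (.main (mC i'))))
    {r r' : HC} {d d' : ℕ} (h : r.key d < r'.key d') :
    (embC g mC r).key (co (embC g mC r)) d < (embC g mC r').key (co (embC g mC r')) d' := by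
  have form : ∀ (i : GC) (d : ℕ), ∃ l, (embC g mC (.item i)).key (co (embC g mC (.item i))) d
      = mkKey (i.kind.idx.val + 1) (zm g i.grp).val l d ∧
      (i.grp = g → l = (mC i).loc (co (.main (mC i)))) ∧ (i.grp ≠ g → l = i.loc) := by
    intro i d
    by_cases hi : i.grp = g
    · refine ⟨(mC i).loc (co (.main (mC i))), ?_, fun _ => rfl, fun h => absurd hi h⟩
      simp [embC, hi, Col.key, hk i hi, zm_self]
    · refine ⟨i.loc, ?_, fun h => absurd h hi, fun _ => rfl⟩
      simp [embC, hi, Col.key, decZone_dz g _ hi]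
  have hW : (CK.W.idx : Fin 8).val = 2 := rfl
  have base : ∀ (r : HC) (d : ℕ), ∃ z l l', r.key d = mkKey (match r.kind with
        | none => 0
        | some κ => κ.idx.val + 1) z l d ∧
      (embC g mC r).key (co (embC g mC r)) d = mkKey (match r.kind with
        | none => 0
        | some κ => κ.idx.val + 1) (match r with
        | .w a => (zm g a).val
        | .item i => (zm g i.grp).val
        | _ => z) l' d ∧
      (match r with
        | .w a => z = a.val ∧ l = 0 ∧ l' = 0
        | .item i => z = i.grp.val ∧ l = i.loc ∧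
            (i.grp = g → l' = (mC i).loc (co (.main (mC i)))) ∧ (i.grp ≠ g → l' = i.loc)
        | _ => l' = l) := by
    intro r d
    cases r with
    | q p => exact ⟨_, _, _, rfl, rfl, rfl⟩
    | w a => exact ⟨_, _, _, rfl, rfl, rfl, rfl, rfl⟩
    | g l => exact ⟨_, _, _, rfl, rfl, rfl⟩
    | item i =>
      obtain ⟨lo, hlo, hlm, hld⟩ := form i d
      exact ⟨_, _, lo, rfl, hlo, rfl, rfl, hlm, hld⟩
  obtain ⟨z, l, l', h1, h1', hr⟩ := base r d
  obtain ⟨z', l₂, l₂', h2, h2', hr'⟩ := base r' d'
  rw [h1, h2] at h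
  rw [h1', h2']
  rcases mkKey_lt.mp h with hk0 | ⟨hk0, hrest⟩
  · exact mkKey_lt.mpr (Or.inl hk0)
  refine mkKey_lt.mpr (Or.inr ⟨hk0, ?_⟩)
  rcases r with p | a | lg | i <;> rcases r' with p' | a' | lg' | i' <;>
    simp only [HC.kind] at hk0 hr hr' <;> simp only
  case q.q => subst hr hr'; exact hrest
  case g.g => subst hr hr'; exact hrest
  case w.w =>
    obtain ⟨rfl, rfl, rfl⟩ := hr
    obtain ⟨rfl, rfl, rfl⟩ := hr'
    rcases hrest with h2 | ⟨h2, h3⟩
    · exact Or.inl (zm_strict g a a' h2)
    · rw [Fin.ext h2]; exact Or.inr ⟨rfl, h3⟩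
  case item.item =>
    obtain ⟨rfl, rfl, hlm, hld⟩ := hr
    obtain ⟨rfl, rfl, hlm', hld'⟩ := hr'
    rcases hrest with h2 | ⟨h2, h3⟩
    · exact Or.inl (zm_strict g _ _ h2)
    · have hk' : i.kind = i'.kind := CK.idx_injective (Fin.ext (by omega))
      have hg : i.grp = i'.grp := Fin.ext h2
      rw [hg]
      refine Or.inr ⟨rfl, ?_⟩
      rcases h3 with h3 | ⟨h3, h4⟩
      · left
        by_cases hi : i.grp = g
        · rw [hlm hi, hlm' (hg ▸ hi)]
          exact hloc i i' hi (hg ▸ hi) hk' h3
        · rw [hld hi, hld' (hg ▸ hi)]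
          exact h3
      · obtain rfl := GC.key_data i i' (by rw [hk']) hg h3
        right
        refine ⟨?_, h4⟩
        by_cases hi : i.grp = g
        · rw [hlm hi, hlm' hi]
        · rw [hld hi, hld' hi]
  case w.g => have := CK.G_idx_ge lg'; omega
  case g.w => have := CK.G_idx_ge lg; omega
  case w.item => have := GC.kind_lt i'; omega
  case item.w => have := GC.kind_lt i; omega
  case g.item => have := GC.kind_lt i'; have := CK.G_idx_ge lg; omega
  case item.g => have := GC.kind_lt i; have := CK.G_idx_ge lg'; omega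
  all_goals omega

/-- Off the main gadget, the embedded classes reproduce the pattern. -/
theorem emb_rel {g : Fin 3} {mR : GR → MR L} {mC : GC → MC L}
    (hkR : ∀ i, i.grp = g → (mR i).kind = i.kind) (hkC : ∀ i, i.grp = g → (mC i).kind = i.kind)
    (r : HR) (q : HC) (e f : ℕ)
    (hne : ¬∃ i j, r = .item i ∧ q = .item j ∧ i.grp = g ∧ j.grp = g) :
    rel (embR g mR r) e (embC g mC q) f = hRel r q := by
  have kR := embR_kind hkR r
  have kC := embC_kind hkC q
  rcases r with t | a | i
  · rcases hq : q.kind with _ | κ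
    · cases q <;> simp [HC.kind] at hq
      rfl
    · rw [hRel_z_kind _ hq]
      exact rel_z _ _ _ (kC.trans hq)
  · rcases q with p | b | l | j
    · rfl
    · exact zm_table g a b
    · exact rel_g _ _ _ _ (by rw [kR]; simp [HR.kind])
    · have h := rel_w_row (zm g a) e f (kC.trans (show (HC.item j).kind = some j.kind from rfl))
        (by cases j <;> simp [GC.kind])
      rw [embC_zone] at h
      refine h.trans ?_
      simp [hRel, (zm_inj g).eq_iff]
  · have hn : (embR g mR (.item i)).kind ≠ none := by rw [kR]; simp [HR.kind]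
    have hW : (embR g mR (.item i)).kind ≠ some .W := by
      rw [kR]; cases i <;> simp [HR.kind, GR.kind]
    rcases q with p | b | l | j
    · exact rel_q _ _ _ _ hn
    · refine (rel_w_col e (zm g b) f hn hW).trans ?_
      rw [embR_zone]
      simp [hRel, (zm_inj g).eq_iff]
    · refine (rel_g _ _ _ _ hn).trans ?_
      rw [kR]; rfl
    · by_cases hg : i.grp = j.grp
      · have hi : i.grp ≠ g := fun h => hne ⟨i, j, rfl, rfl, h, hg ▸ h⟩
        have hj : j.grp ≠ g := hg ▸ hi
        simp [embR, embC, hi, hj, rel, hRel, hg]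
      · have hfalse : hRel (.item i) (.item j) = false := by
          by_contra hc
          exact hg (gRel_grp i j (by simpa [hRel] using hc))
        rw [hfalse]
        by_contra hc
        simp only [Bool.not_eq_false] at hc
        have := rel_item_zone hn hW (kC.trans (show (HC.item j).kind = some j.kind from rfl))
          (by cases j <;> simp [GC.kind]) hc
        rw [embR_zone, embC_zone] at this
        exact hg (zm_inj g this)

/-- A main-zone realisation of gadget `g` in `B` extends to a copy of the pattern. -/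
theorem copy_of_gadget {B : Fin (dim L) → Fin (dim L) → Bool} {c e e' : Fin (2 ^ L)}
    (hB : Agrees B c e e') (g : Fin 3) (mR : GR → MR L) (mC : GC → MC L)
    (hkR : ∀ i, i.grp = g → (mR i).kind = i.kind) (hkC : ∀ i, i.grp = g → (mC i).kind = i.kind)
    (hlR : ∀ i i', i.grp = g → i'.grp = g → i.kind = i'.kind → i.loc < i'.loc →
      (mR i).loc (coordR c e (.main (mR i))).val < (mR i').loc (coordR c e (.main (mR i'))).val)
    (hlC : ∀ i i', i.grp = g → i'.grp = g → i.kind = i'.kind → i.loc < i'.loc →
      (mC i).loc (coordC c e' (.main (mC i))).val < (mC i').loc (coordC c e' (.main (mC i'))).val)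
    (hrel : ∀ i j, i.grp = g → j.grp = g → ∀ d d' : Fin size, d.val = 0 → d'.val = 0 →
      B (rowPt c e (.main (mR i)) d) (colPt c e' (.main (mC j)) d') = gRel i j) :
    ∃ r q : Fin size → Fin (dim L), StrictMono r ∧ StrictMono q ∧
      ∀ i j, B (r i) (q j) = pattern i j := by
  refine ⟨fun i => rowPt c e (embR g mR (HR'.role (hrowOf i)))
      ⟨HR'.dup (hrowOf i), HR'.dup_lt _⟩,
    fun j => colPt c e' (embC g mC (HC'.role (hcolOf j)))
      ⟨HC'.dup (hcolOf j), HC'.dup_lt _⟩, ?_, ?_, ?_⟩
  · intro i j hij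
    exact sortedEquiv_symm_lt RI.key (card_RI L)
      (embR_key (co := fun r => (coordR c e r).val) hkR hlR (hrow_key_strictMono hij))
  · intro i j hij
    exact sortedEquiv_symm_lt CI.key (card_CI L)
      (embC_key (co := fun r => (coordC c e' r).val) hkC hlC (hcol_key_strictMono hij))
  · intro i j
    unfold pattern
    have hd : ∀ a i, HR'.role a = .item i → HR'.dup a = 0 := by
      intro a i ha
      rcases a with a | a
      · rfl
      · simp [HR'.role] at ha
    have hd' : ∀ a i, HC'.role a = .item i → HC'.dup a = 0 := by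
      intro a i ha
      rcases a with a | a
      · rfl
      · simp [HC'.role] at ha
    by_cases hex : ∃ a b, HR'.role (hrowOf i) = .item a ∧ HC'.role (hcolOf j) = .item b ∧
        a.grp = g ∧ b.grp = g
    · obtain ⟨a, b, ha, hb, hga, hgb⟩ := hex
      simp only [ha, hb, embR, embC, hga, hgb, if_true, hRel]
      exact hrel a b hga hgb _ _ (hd _ _ ha) (hd' _ _ hb)
    · have hcell : ¬(isCellR (embR g mR (HR'.role (hrowOf i))) = true ∧
          isCellC (embC g mC (HC'.role (hcolOf j))) = true) := by
        rintro ⟨h1, h2⟩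
        apply hex
        cases hr : HR'.role (hrowOf i) <;> simp [hr, embR, isCellR] at h1
        cases hc : HC'.role (hcolOf j) <;> simp [hc, embC, isCellC] at h2
        rename_i a b
        refine ⟨a, b, rfl, rfl, ?_, ?_⟩
        · by_contra hh; simp [hh] at h1
        · by_contra hh; simp [hh] at h2
      rw [hB _ _ _ _ hcell, host_pt]
      exact emb_rel hkR hkC _ _ _ _ hex

end Vale.Agent.P037
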