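import Mathlib
import Vale.Agent.P037.Embed

namespace Vale.Agent.P037

variable {L : ℕ}

/-- The first tie index. -/
def d0 : Fin size := ⟨0, lt_of_lt_of_le (Fintype.card_pos_iff.mpr ⟨HR.w 0⟩)
  (Nat.le_add_right _ _)⟩

theorem eq_d0 {d : Fin size} (h : d.val = 0) : d = d0 := Fin.ext h

theorem coordR_x_bit (c e : Fin (2 ^ L)) (s : Bool) (a : Fin (L + 1)) :
    bit L a.val (coordR c e (.main (.x s a))).val = bit L a.val c.val := by
  by_cases h : a.val = 0
  · rw [h, bit_zero (Fin.isLt _), bit_zero c.isLt]
  · simp [coordR, isCellR, h]

theorem coordC_y_bit (c e : Fin (2 ^ L)) (s : Bool) (a : Fin (L + 1)) :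
    bit L a.val (coordC c e (.main (.y s a))).val = bit L a.val c.val := by
  by_cases h : a.val = 0
  · rw [h, bit_zero (Fin.isLt _), bit_zero c.isLt]
  · simp [coordC, isCellC, h]

theorem pos_nested (c e : Fin (2 ^ L)) (a : ℕ) (ha : a + 1 ≤ L) (s : Bool) :
    pos L false a (if a = 0 then e else c).val < pos L s (a + 1) c.val ∧
    pos L s (a + 1) c.val < pos L true a (if a = 0 then e else c).val := by
  have h1 : (c.val + 1) * (2 * L + 2) ≤ 2 ^ L * (2 * L + 2) :=
    Nat.mul_le_mul_right _ c.isLt
  rw [add_mul, one_mul] at h1
  unfold pos
  rcases Nat.eq_zero_or_pos a with h | h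
  · subst h
    cases s <;> simp <;> omega
  · have h' : a ≠ 0 := by omega
    cases s <;> simp [h'] <;> omega

theorem coordR_x (c e : Fin (2 ^ L)) (s : Bool) (a : Fin (L + 1)) :
    coordR c e (.main (.x s a)) = if a.val = 0 then e else c := by
  by_cases h : a.val = 0 <;> simp [coordR, isCellR, h]

theorem coordC_y (c e : Fin (2 ^ L)) (s : Bool) (a : Fin (L + 1)) :
    coordC c e (.main (.y s a)) = if a.val = 0 then e else c := by
  by_cases h : a.val = 0 <;> simp [coordC, isCellC, h]

variable {B : Fin (dim L) → Fin (dim L) → Bool} {c e e' : Fin (2 ^ L)}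

theorem agrees_main (hB : Agrees B c e e') (i : MR L) (j : MC L) (d d' : Fin size)
    (h : ¬(isCellR (.main i) = true ∧ isCellC (.main j) = true)) :
    B (rowPt c e (.main i) d) (colPt c e' (.main j) d') =
      mRel i (coordR c e (.main i)).val j (coordC c e' (.main j)).val := by
  rw [hB _ _ _ _ h, host_pt]
  rfl

/-- The entry of `B` at two sampled main classes. -/
noncomputable def ent (B : Fin (dim L) → Fin (dim L) → Bool) (c e e' : Fin (2 ^ L))
    (i : MR L) (j : MC L) : Bool :=
  B (rowPt c e (.main i) d0) (colPt c e' (.main j) d0)

theorem ent_protected (hB : Agrees B c e e') (i : MR L) (j : MC L)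
    (h : ¬(isCellR (.main i) = true ∧ isCellC (.main j) = true)) :
    ent B c e e' i j = mRel i (coordR c e (.main i)).val j (coordC c e' (.main j)).val :=
  agrees_main hB _ _ _ _ h

theorem ent_def (i : MR L) (j : MC L) :
    B (rowPt c e (.main i) d0) (colPt c e' (.main j) d0) = ent B c e e' i j := rfl

attribute [local irreducible] ent rowPt colPt

/-- The first gadget passes equality of cells to one level deeper rows. -/
theorem step_row (hB : Agrees B c e e')
    (hno : ¬∃ r q : Fin size → Fin (dim L), StrictMono r ∧ StrictMono q ∧
      ∀ i j, B (r i) (q j) = pattern i j)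
    (j0 j1 : Fin (L + 1)) (hs : j1.val = j0.val + 1)
    (P : ∀ s s', ent B c e e' (.x s j0) (.y s' j0) = true) (s s' : Bool) :
    ent B c e e' (.x s j1) (.y s' j0) = true := by
  by_contra hf
  rw [Bool.not_eq_true] at hf
  apply hno
  let mR : GR → MR L := fun i => match i with
    | .xm => .x false j0
    | .x => .x s j1
    | .xp => .x true j0
    | .v => .v j0 (bit L j0.val c.val)
    | .p => .p j1
    | _ => .t
  let mC : GC → MC L := fun i => match i with
    | .y => .y s' j0
    | .u => .u j0 (bit L j0.val c.val)
    | .uc => .u j1 (bit L j1.val c.val)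
    | _ => .u j0 false
  have hne : j0 ≠ j1 := fun h => by rw [h] at hs; omega
  refine copy_of_gadget hB 0 mR mC ?_ ?_ ?_ ?_ ?_
  · intro i hi; cases i <;> first | exact absurd hi (by decide) | rfl
  · intro i hi; cases i <;> first | exact absurd hi (by decide) | rfl
  · intro i i' hi hi' hk hl
    obtain ⟨hp1, hp2⟩ := pos_nested c e j0.val (by omega) s
    have hj1 : j1.val ≠ 0 := by omega
    cases i <;> first | exact absurd hi (by decide) |
      (cases i' <;> first
        | exact absurd hi' (by decide) | exact absurd hk (by decide) | exact absurd hl (by decide)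
        | (simp only [mR, MR.loc, coordR_x, hs, Nat.add_one_ne_zero, if_false]; omega))
  · intro i i' hi hi' hk hl
    cases i <;> first | exact absurd hi (by decide) |
      (cases i' <;> first
        | exact absurd hi' (by decide) | exact absurd hk (by decide) | exact absurd hl (by decide)
        | (simp only [mC, MC.loc]; omega))
  · intro i j hi hj d d' hd hd'
    rw [eq_d0 hd, eq_d0 hd']
    rw [ent_def (B := B)]
    cases i <;> first | exact absurd hi (by decide) |
      (cases j <;> first
        | exact absurd hj (by decide)
        | exact P _ _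
        | exact hf
        | (rw [ent_protected hB _ _ (by simp [mR, mC, isCellR, isCellC])]
           simp [mR, mC, mRel, gRel, hne, Ne.symm hne, coordR_x_bit, coordC_y_bit] <;> omega))

/-- The second gadget refines equality of cells by one level. -/
theorem step_col (hB : Agrees B c e e')
    (hno : ¬∃ r q : Fin size → Fin (dim L), StrictMono r ∧ StrictMono q ∧
      ∀ i j, B (r i) (q j) = pattern i j)
    (j0 j1 : Fin (L + 1)) (hs : j1.val = j0.val + 1)
    (Q : ∀ s s', ent B c e e' (.x s j1) (.y s' j0) = true) (s s' : Bool) :
    ent B c e e' (.x s j1) (.y s' j1) = true := by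
  by_contra hf
  rw [Bool.not_eq_true] at hf
  apply hno
  let mR : GR → MR L := fun i => match i with
    | .x' => .x s j1
    | .v' => .v j1 (bit L j1.val c.val)
    | .p' => .p j1
    | _ => .t
  let mC : GC → MC L := fun i => match i with
    | .ym' => .y false j0
    | .y' => .y s' j1
    | .yp' => .y true j0
    | .u' => .u j1 (bit L j1.val c.val)
    | _ => .u j0 false
  have hne : j0 ≠ j1 := fun h => by rw [h] at hs; omega
  refine copy_of_gadget hB 1 mR mC ?_ ?_ ?_ ?_ ?_
  · intro i hi; cases i <;> first | exact absurd hi (by decide) | rfl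
  · intro i hi; cases i <;> first | exact absurd hi (by decide) | rfl
  · intro i i' hi hi' hk hl
    cases i <;> first | exact absurd hi (by decide) |
      (cases i' <;> first
        | exact absurd hi' (by decide) | exact absurd hk (by decide) | exact absurd hl (by decide))
  · intro i i' hi hi' hk hl
    obtain ⟨hp1, hp2⟩ := pos_nested c e' j0.val (by omega) s'
    have hj1 : j1.val ≠ 0 := by omega
    cases i <;> first | exact absurd hi (by decide) |
      (cases i' <;> first
        | exact absurd hi' (by decide) | exact absurd hk (by decide) | exact absurd hl (by decide)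
        | (simp only [mC, MC.loc, coordC_y, hs, Nat.add_one_ne_zero, if_false]; omega))
  · intro i j hi hj d d' hd hd'
    rw [eq_d0 hd, eq_d0 hd']
    rw [ent_def (B := B)]
    cases i <;> first | exact absurd hi (by decide) |
      (cases j <;> first
        | exact absurd hj (by decide)
        | exact Q _ _
        | exact hf
        | (rw [ent_protected hB _ _ (by simp [mR, mC, isCellR, isCellC])]
           simp [mR, mC, mRel, gRel, hne, Ne.symm hne, coordR_x_bit, coordC_y_bit] <;> omega))

/-- Agreement on the protected part of one sample forces a copy. -/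
theorem copy_of_agrees (hB : Agrees B c e e') :
    ∃ r q : Fin size → Fin (dim L), StrictMono r ∧ StrictMono q ∧
      ∀ i j, B (r i) (q j) = pattern i j := by
  by_contra hno
  have main : ∀ a : ℕ, ∀ ha : a ≤ L, ∀ s s',
      ent B c e e' (.x s ⟨a, by omega⟩) (.y s' ⟨a, by omega⟩) = true := by
    intro a
    induction a with
    | zero =>
      intro ha s s'
      rw [ent_protected hB _ _ (by simp [isCellR])]
      simp [mRel, cellIdx_zero]
    | succ a ih =>
      intro ha s s'
      exact step_col hB hno ⟨a, by omega⟩ ⟨a + 1, by omega⟩ rfl
        (step_row hB hno ⟨a, by omega⟩ ⟨a + 1, by omega⟩ rfl (ih (by omega))) s s'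
  apply hno
  let top : Fin (L + 1) := ⟨L, by omega⟩
  let mR : GR → MR L := fun i => match i with
    | .x'' => .x false top
    | _ => .t
  let mC : GC → MC L := fun _ => .y false top
  refine copy_of_gadget hB 2 mR mC ?_ ?_ ?_ ?_ ?_
  · intro i hi; cases i <;> first | exact absurd hi (by decide) | rfl
  · intro i hi; cases i <;> first | exact absurd hi (by decide) | rfl
  · intro i i' hi hi' hk hl
    cases i <;> first | exact absurd hi (by decide) |
      (cases i' <;> first
        | exact absurd hi' (by decide) | exact absurd hk (by decide) | exact absurd hl (by decide))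
  · intro i i' hi hi' hk hl
    cases i <;> first | exact absurd hi (by decide) |
      (cases i' <;> first
        | exact absurd hi' (by decide) | exact absurd hk (by decide) | exact absurd hl (by decide))
  · intro i j hi hj d d' hd hd'
    rw [eq_d0 hd, eq_d0 hd']
    rw [ent_def (B := B)]
    cases i <;> first | exact absurd hi (by decide) |
      (cases j <;> first
        | exact absurd hj (by decide)
        | exact main L le_rfl _ _
        | (rw [ent_protected hB _ _ (by simp [mR, isCellR])]
           simp [mR, mC, mRel, gRel, top]))

end Vale.Agent.P037
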