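import Mathlib

namespace Vale.Agent.P037

/-- Number of ordered copies of the pattern `H` in the matrix `A`: pairs of strictly increasing
row and column selections on which `A` agrees with `H`, zeros as well as ones. -/
noncomputable def copyCount {k n : ℕ} (H : Fin k → Fin k → Bool) (A : Fin n → Fin n → Bool) : ℕ :=
  Nat.card {rc : (Fin k → Fin n) × (Fin k → Fin n) //
    StrictMono rc.1 ∧ StrictMono rc.2 ∧ ∀ i j, A (rc.1 i) (rc.2 j) = H i j}

/-- Number of entries on which two matrices differ. -/
noncomputable def diffCount {n : ℕ} (A B : Fin n → Fin n → Bool) : ℕ :=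
  Nat.card {p : Fin n × Fin n // A p.1 p.2 ≠ B p.1 p.2}

/-- `A` is `ε`-far from being free of `H`: every matrix without a copy of `H` differs from `A`
in at least `ε * n ^ 2` entries. -/
def IsFar {k n : ℕ} (H : Fin k → Fin k → Bool) (A : Fin n → Fin n → Bool) (ε : ℝ) : Prop :=
  ∀ B : Fin n → Fin n → Bool, copyCount H B = 0 → ε * (n : ℝ) ^ 2 ≤ (diffCount A B : ℝ)

end Vale.Agent.P037
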