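import Mathlib
import Vale.Agent.P037.Defs
import Vale.Agent.P037.Chain

namespace Vale.Agent.P037

variable {L : ℕ}

noncomputable def rolePosR (r : HR) : Fin size := hrowOf.symm (.inl r)

noncomputable def rolePosC (r : HC) : Fin size := hcolOf.symm (.inl r)

/-- A copy in the host, read on the roles. -/
noncomputable def roleCopyOf (r q : Fin size → Fin (dim L)) (hr : StrictMono r)
    (hq : StrictMono q) (h : ∀ i j, host L (r i) (q j) = pattern i j) : RoleCopy L where
  R a := (rowOf L (r (rolePosR a))).1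
  Re a := (rowOf L (r (rolePosR a))).2.1.val
  Rd a := (rowOf L (r (rolePosR a))).2.2.1.val
  C a := (colOf L (q (rolePosC a))).1
  Ce a := (colOf L (q (rolePosC a))).2.1.val
  Cd a := (colOf L (q (rolePosC a))).2.2.1.val
  Re_lt a := Fin.isLt _
  Ce_lt a := Fin.isLt _
  agree a b := by
    have := h (rolePosR a) (rolePosC b)
    simpa [host, pattern, rolePosR, rolePosC, HR'.role, HC'.role] using this
  rmono a b hab := sortedEquiv_monotone RI.key (card_RI L)
    (hr (sortedEquiv_symm_lt HR'.key card_HR' (a := .inl a) (b := .inl b) hab)).le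
  cmono a b hab := sortedEquiv_monotone CI.key (card_CI L)
    (hq (sortedEquiv_symm_lt HC'.key card_HC' (a := .inl a) (b := .inl b) hab)).le

theorem copy_cells (r q : Fin size → Fin (dim L)) (hr : StrictMono r) (hq : StrictMono q)
    (h : ∀ i j, host L (r i) (q j) = pattern i j) :
    (rowOf L (r (rolePosR (.item .x'')))).2.1 = (colOf L (q (rolePosC (.item .y'')))).2.1 :=
  Fin.ext (roleCopyOf r q hr hq h).top_eq

/-- The host has at most a `2 ^ (-L)` fraction of all selections as copies. -/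
theorem copyCount_host_le (L : ℕ) :
    copyCount pattern (host L) * 2 ^ L ≤ dim L ^ (2 * size) := by
  classical
  let T := {rc : (Fin size → Fin (dim L)) × (Fin size → Fin (dim L)) //
    StrictMono rc.1 ∧ StrictMono rc.2 ∧ ∀ i j, host L (rc.1 i) (rc.2 j) = pattern i j}
  let i0 := rolePosR (.item .x'')
  let j0 := rolePosC (.item .y'')
  let f : T × Fin (2 ^ L) → (Fin size → Fin (dim L)) × (Fin size → Fin (dim L)) := fun x =>
    (x.1.1.1, Function.update x.1.1.2 j0
      ((colOf L).symm ((colOf L (x.1.1.2 j0)).1, x.2, (colOf L (x.1.1.2 j0)).2.2)))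
  have hf : Function.Injective f := by
    rintro ⟨⟨⟨r, q⟩, hr, hq, h⟩, t⟩ ⟨⟨⟨r', q'⟩, hr', hq', h'⟩, t'⟩ hxy
    simp only [f, Prod.mk.injEq] at hxy
    obtain ⟨h1, h2⟩ := hxy
    have hc := copy_cells r q hr hq h
    have hc' := copy_cells r' q' hr' hq' h'
    subst h1
    have hj := congrFun h2 j0
    simp only [Function.update_self, EmbeddingLike.apply_eq_iff_eq, Prod.mk.injEq] at hj
    obtain ⟨ha, hb, hd⟩ := hj
    have hq0 : q j0 = q' j0 := by
      apply (colOf L).injective
      exact Prod.ext ha (Prod.ext (hc.symm.trans hc') hd)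
    have hqq : q = q' := by
      funext j
      by_cases hj : j = j0
      · rw [hj]; exact hq0
      · have := congrFun h2 j
        simpa [Function.update_of_ne hj] using this
    subst hqq
    subst hb
    rfl
  have := Nat.card_le_card_of_injective f hf
  simp only [Nat.card_prod, Nat.card_eq_fintype_card, Fintype.card_fun, Fintype.card_fin] at this
  rw [two_mul, pow_add]
  unfold copyCount
  simpa [Nat.card_eq_fintype_card, T] using this

/-- A matrix without a copy differs from the host in at least `(2 ^ L) ^ 2` entries. -/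
theorem diffCount_host (L : ℕ) (B : Fin (dim L) → Fin (dim L) → Bool)
    (hfree : copyCount pattern B = 0) : (2 ^ L) ^ 2 ≤ diffCount (host L) B := by
  classical
  have hbad : ∀ ω : Fin (2 ^ L) × Fin (2 ^ L) × Fin (2 ^ L), ∃ (r : Row L) (q : Col L)
      (d d' : Fin size), ¬(isCellR r = true ∧ isCellC q = true) ∧
      host L (rowPt ω.1 ω.2.1 r d) (colPt ω.1 ω.2.2 q d') ≠
        B (rowPt ω.1 ω.2.1 r d) (colPt ω.1 ω.2.2 q d') := by
    intro ω
    by_contra hcon
    push Not at hcon
    obtain ⟨r, q, hr, hq, h⟩ := copy_of_agrees (B := B) (c := ω.1) (e := ω.2.1) (e' := ω.2.2)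
      (fun r q d d' hc => (hcon r q d d' fun a => by simpa [not_and, a] using hc).symm)
    unfold copyCount at hfree
    rw [Nat.card_eq_zero] at hfree
    rcases hfree with he | hi
    · exact he.false ⟨(r, q), hr, hq, h⟩
    · exact not_finite {rc : (Fin size → Fin (dim L)) × (Fin size → Fin (dim L)) //
        StrictMono rc.1 ∧ StrictMono rc.2 ∧ ∀ i j, B (rc.1 i) (rc.2 j) = pattern i j}
  choose r q d d' hcell hne using hbad
  let f : Fin (2 ^ L) × Fin (2 ^ L) × Fin (2 ^ L) →
      {p : Fin (dim L) × Fin (dim L) // host L p.1 p.2 ≠ B p.1 p.2} × Fin (2 ^ L) := fun ω =>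
    (⟨(rowPt ω.1 ω.2.1 (r ω) (d ω), colPt ω.1 ω.2.2 (q ω) (d' ω)), hne ω⟩,
      if isCellR (r ω) then ω.2.1 else if isCellC (q ω) then ω.2.2 else ω.1)
  have hf : Function.Injective f := by
    intro ω ω' h
    simp only [f, Prod.mk.injEq, Subtype.mk.injEq, rowPt, colPt,
      EmbeddingLike.apply_eq_iff_eq] at h
    obtain ⟨⟨⟨hr, hcr, -⟩, hq, hcq, -⟩, h3⟩ := h
    have hc := hcell ω'
    rw [← hr] at hcr h3 hc
    rw [← hq] at hcq h3 hc
    obtain ⟨c, e, e'⟩ := ω
    obtain ⟨c₂, e₂, e₂'⟩ := ω'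
    by_cases ha : isCellR (r (c, e, e')) = true <;> by_cases hb : isCellC (q (c, e, e')) = true
    · exact absurd ⟨ha, hb⟩ hc
    all_goals simp_all [coordR, coordC]
  have := Nat.card_le_card_of_injective f hf
  simp only [Nat.card_prod, Nat.card_fin] at this
  have h' : (2 ^ L) ^ 2 * 2 ^ L ≤ diffCount (host L) B * 2 ^ L := by
    unfold diffCount
    calc (2 ^ L) ^ 2 * 2 ^ L = 2 ^ L * (2 ^ L * 2 ^ L) := by ring
      _ ≤ _ := this
  exact Nat.le_of_mul_le_mul_right h' (by positivity)

theorem size_pos : 0 < size := (d0).pos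

theorem blow_ge_two (L : ℕ) : 2 ≤ blow L := by
  have h1 : 2 ≤ Fintype.card (Row L) :=
    Fintype.one_lt_card_iff.mpr ⟨.w 0, .w 1, by simp⟩
  have h2 := card_col_pos L
  have h3 := size_pos
  unfold blow
  calc 2 = 2 * 1 * 1 := rfl
    _ ≤ _ := Nat.mul_le_mul (Nat.mul_le_mul h1 h2) h3

theorem card_row_le (L : ℕ) : Fintype.card (Row L) ≤ 105 * (L + 1) := by
  let f : Row L → (Fin 54 ⊕ Fin 5 ⊕ (Fin 4 × GR)) ⊕
      ((Bool × Fin (L + 1)) ⊕ (Fin (L + 1) × Bool) ⊕ Fin (L + 1) ⊕ Unit) := fun r => match r with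
    | .z t => .inl (.inl t)
    | .w a => .inl (.inr (.inl a))
    | .dec d i => .inl (.inr (.inr (d, i)))
    | .main (.x s a) => .inr (.inl (s, a))
    | .main (.v j b) => .inr (.inr (.inl (j, b)))
    | .main (.p j) => .inr (.inr (.inr (.inl j)))
    | .main .t => .inr (.inr (.inr (.inr ())))
  have hf : Function.Injective f := by
    intro a b h
    rcases a with t | t | ⟨u, v⟩ | ⟨s, a⟩ | ⟨s, a⟩ | a | _ <;>
      rcases b with t' | t' | ⟨u', v'⟩ | ⟨s', a'⟩ | ⟨s', a'⟩ | a' | _ <;>
      simp_all [f]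
  have := Fintype.card_le_of_injective f hf
  have hGR : Fintype.card GR = 10 := by decide
  simp [hGR] at this
  omega

/-- A uniform constant bounding the number of classes of columns. -/
def colConst : ℕ := Fintype.card Pair + 47

theorem card_col_le (L : ℕ) : Fintype.card (Col L) ≤ colConst * (L + 1) := by
  let f : Col L → (Pair ⊕ Fin 5 ⊕ RK ⊕ (Fin 4 × GC)) ⊕
      ((Bool × Fin (L + 1)) ⊕ (Fin (L + 1) × Bool)) := fun r => match r with
    | .q t => .inl (.inl t)
    | .w a => .inl (.inr (.inl a))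
    | .g l => .inl (.inr (.inr (.inl l)))
    | .dec d i => .inl (.inr (.inr (.inr (d, i))))
    | .main (.y s a) => .inr (.inl (s, a))
    | .main (.u j b) => .inr (.inr (j, b))
  have hf : Function.Injective f := by
    intro a b h
    rcases a with t | t | t | ⟨u, v⟩ | ⟨s, a⟩ | ⟨s, a⟩ <;>
      rcases b with t' | t' | t' | ⟨u', v'⟩ | ⟨s', a'⟩ | ⟨s', a'⟩ <;>
      simp_all [f]
  have := Fintype.card_le_of_injective f hf
  have hGC : Fintype.card GC = 8 := by decide
  have hRK : Fintype.card RK = 5 := by decide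
  simp only [Fintype.card_sum, Fintype.card_prod, Fintype.card_fin, Fintype.card_bool, hGC,
    hRK] at this
  have h2 : Fintype.card Pair ≤ Fintype.card Pair * (L + 1) := Nat.le_mul_of_pos_right _ (by omega)
  unfold colConst
  rw [add_mul]
  omega

/-- The constant in the quantitative bound. -/
def farConst : ℕ := (105 * colConst * size) ^ 2

theorem blow_sq_le (L : ℕ) : blow L ^ 2 ≤ farConst * (L + 1) ^ 4 := by
  have h : blow L ≤ 105 * colConst * size * (L + 1) ^ 2 := by
    unfold blow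
    calc Fintype.card (Row L) * Fintype.card (Col L) * size
        ≤ 105 * (L + 1) * (colConst * (L + 1)) * size :=
          Nat.mul_le_mul_right _ (Nat.mul_le_mul (card_row_le L) (card_col_le L))
      _ = _ := by ring
  calc blow L ^ 2 ≤ (105 * colConst * size * (L + 1) ^ 2) ^ 2 := Nat.pow_le_pow_left h 2
    _ = _ := by unfold farConst; ring

theorem farConst_ge_two : 2 ≤ farConst := by
  have h := blow_sq_le 0
  have h2 := blow_ge_two 0
  simp at h
  nlinarith

attribute [local irreducible] farConst dim blow size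

theorem host_far (L : ℕ) :
    IsFar pattern (host L) (1 / ((farConst : ℝ) * ((L : ℝ) + 1) ^ 4)) := by
  intro B hB
  have h := diffCount_host L B hB
  have hcast : (((2 ^ L) ^ 2 : ℕ) : ℝ) ≤ (diffCount (host L) B : ℝ) := by exact_mod_cast h
  refine le_trans ?_ hcast
  have hK : (0 : ℝ) < (farConst : ℝ) * ((L : ℝ) + 1) ^ 4 := by
    have : (0 : ℝ) < (farConst : ℝ) := by
      have := farConst_ge_two
      exact_mod_cast (by omega : 0 < farConst)
    positivity
  have hb : ((blow L : ℝ)) ^ 2 ≤ (farConst : ℝ) * ((L : ℝ) + 1) ^ 4 := by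
    exact_mod_cast blow_sq_le L
  rw [div_mul_eq_mul_div, one_mul, div_le_iff₀ hK]
  have : (dim L : ℝ) ^ 2 = (blow L : ℝ) ^ 2 * (((2 ^ L) ^ 2 : ℕ) : ℝ) := by
    unfold dim; push_cast; ring
  rw [this, mul_comm]
  exact mul_le_mul_of_nonneg_left hb (Nat.cast_nonneg _)

theorem exists_free (n : ℕ) : ∃ B : Fin n → Fin n → Bool, copyCount pattern B = 0 := by
  refine ⟨fun _ _ => true, ?_⟩
  unfold copyCount
  rw [Nat.card_eq_zero]
  left
  constructor
  rintro ⟨⟨r, q⟩, -, -, h⟩
  have := h (rolePosR (.w 0)) (rolePosC (.w 1))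
  simp [pattern, rolePosR, rolePosC, HR'.role, HC'.role, hRel] at this

theorem not_polynomial (c C : ℝ) (hc : 0 < c) :
    ∃ (n : ℕ) (ε : ℝ) (A : Fin n → Fin n → Bool), 1 ≤ n ∧ 0 < ε ∧ ε < 1 ∧
      IsFar pattern A ε ∧
      (copyCount pattern A : ℝ) < c * ε ^ C * (n : ℝ) ^ (2 * size) := by
  obtain ⟨p, hp⟩ := exists_nat_ge C
  set K : ℝ := (farConst : ℝ) with hKdef
  have hK2 : (2 : ℝ) ≤ K := by rw [hKdef]; exact_mod_cast farConst_ge_two
  have hKp : 0 < K ^ p := by positivity
  have ht := (tendsto_pow_const_div_const_pow_of_one_lt (4 * p) (one_lt_two (α := ℝ))).comp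
    (Filter.tendsto_add_atTop_nat 1)
  have hev := ht.eventually_lt_const (show 0 < c / (2 * K ^ p) by positivity)
  obtain ⟨L, hL⟩ := hev.exists
  simp only [Function.comp_apply] at hL
  have hM : (1 : ℝ) < K * ((L : ℝ) + 1) ^ 4 := by
    have : (1 : ℝ) ≤ ((L : ℝ) + 1) ^ 4 := one_le_pow₀ (by simp)
    nlinarith
  have hn : 1 ≤ dim L := by
    unfold dim
    exact Nat.mul_pos (by have := blow_ge_two L; omega) (by positivity)
  refine ⟨dim L, 1 / (K * ((L : ℝ) + 1) ^ 4), host L, hn, by positivity,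
    (div_lt_one (by linarith)).mpr hM, host_far L, ?_⟩
  set ε : ℝ := 1 / (K * ((L : ℝ) + 1) ^ 4) with hε
  have hεC : ε ^ (p : ℝ) ≤ ε ^ C :=
    Real.rpow_le_rpow_of_exponent_ge (by positivity) ((div_le_one (by linarith)).mpr hM.le) hp
  rw [Real.rpow_natCast] at hεC
  have hN : (0 : ℝ) < (dim L : ℝ) ^ (2 * size) := by
    have : (0 : ℝ) < (dim L : ℝ) := by exact_mod_cast hn
    positivity
  have hcount : (copyCount pattern (host L) : ℝ) * 2 ^ L ≤ (dim L : ℝ) ^ (2 * size) := by
    exact_mod_cast copyCount_host_le L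
  have hkey : (1 : ℝ) / 2 ^ L < c * ε ^ p := by
    have hL' : (((L : ℝ) + 1) ^ (4 * p)) * (2 * K ^ p) < c * 2 ^ (L + 1) := by
      have := hL
      push_cast at this
      rwa [div_lt_div_iff₀ (by positivity) (by positivity)] at this
    rw [hε, div_pow, one_pow, mul_one_div, div_lt_div_iff₀ (by positivity) (by positivity),
      mul_pow, ← pow_mul, one_mul]
    rw [pow_succ] at hL'
    nlinarith
  calc (copyCount pattern (host L) : ℝ)
      ≤ (dim L : ℝ) ^ (2 * size) / 2 ^ L := (le_div_iff₀ (by positivity)).mpr hcount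
    _ = (1 / 2 ^ L) * (dim L : ℝ) ^ (2 * size) := by ring
    _ < (c * ε ^ p) * (dim L : ℝ) ^ (2 * size) := mul_lt_mul_of_pos_right hkey hN
    _ ≤ c * ε ^ C * (dim L : ℝ) ^ (2 * size) := by
        apply mul_le_mul_of_nonneg_right (mul_le_mul_of_nonneg_left hεC hc.le) hN.le

end Vale.Agent.P037
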